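import Vale.Agent.P218WE.One
import Vale.Agent.P218WE.RegS
import Vale.Agent.P218UT.Cyl
import Vale.Agent.P218UI.Weight

/-! Multiplicity one almost everywhere implies multiplicity one everywhere, for weak flows. -/

open MeasureTheory Set Filter Topology Metric
open scoped ENNReal NNReal RealInnerProductSpace ContDiff

namespace Vale.Agent.P218WE

open Vale.Agent.P218UA Vale.Agent.P218UM Vale.Agent.P218UD Vale.Agent.P218WA
open Vale.Agent.P218.H63 (lap hessSq)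

/-- [DENS] -/
theorem densW (hC : CalcW) (hM : MonoW) (hT : TangW) (hcore : CoreW) (hcell : CellW) (hF : FlatW)
    (hR : RegPtW) : DensW := by
  have hD : CylDensStmt := P218UT.cylDens
  have hW : WeightStmtR := P218UI.weight
  intro w a Z A C ha hw s ν h hZ
  refine eq_empty_of_forall_notMem fun z hz => ?_
  have hA := hw.one_le
  have hA0 : 0 ≤ A := zero_le_one.trans hA
  have hX := CXi_pos
  have hz0 := norm_nonneg z
  obtain ⟨θ, σ, δ, c, Cc, hθ0, hθ, hσ, hσ1, hδ, hc, hc1, hCc, hcore⟩ := hcore A hA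
  obtain ⟨ρ, hρ, hρ1, hρz⟩ : ∃ ρ : ℝ, 0 < ρ ∧ ρ ≤ 1 / 2 ∧ ρ * ‖z‖ ≤ 1 / 2 := by
    refine ⟨1 / (2 * (‖z‖ + 1)), by positivity,
      one_div_le_one_div_of_le (by norm_num) (by linarith), ?_⟩
    rw [div_mul_eq_mul_div, div_le_iff₀ (by positivity)]
    linarith
  have hρ2 : ρ ^ 2 ≤ 1 / 4 := by nlinarith only [hρ, hρ1]
  have hρ3 : 0 < ρ ^ 2 := by positivity
  obtain ⟨rc, hrc, N, hcount⟩ := hcell.count A C (δ / 2) (half_pos hδ)
  obtain ⟨K, hK, hψ⟩ := exists_psi z (tm := -1 - ρ ^ 2 / 2) (τ := ρ ^ 2 / 6) (by positivity)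
    (by linarith only [hρ3])
  obtain ⟨r₀, hr₀, hr₀ρ, n1⟩ := exists_small' (X := 4 * ((2 / c + 63) * K) * A) (by positivity)
    (b := ρ / 4) (by positivity)
  obtain ⟨ε₁, hε₁, -, n2⟩ := exists_small' (X := (2 / c + 63) * (K / r₀ ^ 2)) (by positivity)
    one_pos
  obtain ⟨y₀, B, hB, hbad⟩ := ev_bad_small hC hD hT hR ha hw h hσ hσ1 hθ0 hθ hZ (‖z‖ + 1) hε₁
  obtain ⟨r₂, hr₂, hbar⟩ := ev_bbar hC hT ha hw.toIsW0 h (hF w a Z A C ha hw.toIsG0 s ν h)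
    (‖z‖ + 1) (δ := δ / 4) (by positivity)
  obtain ⟨r₃, hr₃, hmass⟩ := ev_mass hC hD hT ha hw.toIsW0 h hz
  obtain ⟨b, hb0, hb⟩ : ∃ b : ℝ, b ≤ y₀ ∧ Real.exp (b + 4) ≤ min (min ρ r₂) (min r₃ (r₀ / 2)) := by
    refine ⟨min y₀ (Real.log (min (min ρ r₂) (min r₃ (r₀ / 2))) - 4), min_le_left _ _, ?_⟩
    refine le_trans (Real.exp_le_exp.2 ?_) (Real.exp_log (by positivity)).le
    linarith only [min_le_right y₀ (Real.log (min (min ρ r₂) (min r₃ (r₀ / 2))) - 4)]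
  rw [le_min_iff, le_min_iff, le_min_iff] at hb
  obtain ⟨r₁, hr₁⟩ : ∃ r₁ : ℝ, Real.exp (b - 2) = 2 * r₁ := ⟨Real.exp (b - 2) / 2, by ring⟩
  have hr₁0 : 0 < r₁ := by linarith only [Real.exp_pos (b - 2), hr₁]
  have hr₁1 : 2 * r₁ ≤ Real.exp (b + 4) := hr₁ ▸ Real.exp_le_exp.2 (by linarith only)
  obtain ⟨ψ, hψ1, hψ2, hψ3, hψ4, hψ5⟩ := hψ r₀ r₁ hr₁0 (by linarith only [hr₁1, hb.2.2, hr₀])
    (by linarith only [hr₀ρ, hρ1])
  have hψc : HasCompactSupport fun p : ℝ × E3 => ψ p.1 p.2 := by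
    refine ((isCompact_Icc (a := -2) (b := -1)).prod
      (isCompact_closedBall z (‖z‖ + 1))).of_isClosed_subset (isClosed_tsupport _) fun p hp => ?_
    have h1 : p.1 ∈ Icc (-2 : ℝ) (-1) :=
      ⟨by linarith only [(hψ2 hp).1.1, hρ2], by linarith only [(hψ2 hp).1.2, hρ3]⟩
    have h2 := norm_ctr_sub z h1.2
    have h3 := norm_add_le (p.2 - ctr z p.1) (ctr z p.1 - z)
    have h4 : (-1 - p.1) * ‖z‖ ≤ 1 * ‖z‖ := mul_le_mul_of_nonneg_right (by linarith only [h1.1]) hz0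
    rw [sub_add_sub_cancel] at h3
    exact ⟨h1, mem_closedBall_iff_norm.2
      (by linarith only [(hψ2 hp).2, h2, h3, h4, hr₀ρ, hρ1])⟩
  obtain ⟨M, hMψ⟩ := hψ1.continuous.bounded_above_of_compact_support hψc
  have hM0 : 0 ≤ M := (norm_nonneg _).trans (hMψ 0)
  obtain ⟨ε, hε, -, n3⟩ := exists_small' (X := M * (1 + Cc) * A * N) (by positivity) one_pos
  obtain ⟨Λ, Cw, e, hΛ, hCw, he, he0, -, he1, hwt⟩ := hW (c / 2) ε (half_pos hc) hε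
  obtain ⟨ε₂, hε₂, -, n4⟩ := exists_small' (X := M * (Cw * (CXi / δ)) * (A * Λ ^ 2))
    (by positivity) one_pos
  obtain ⟨rs, hrs, ε', hε', hsmall⟩ := hcell.small A C (δ / 2) (ρ * ((‖z‖ + 4) / 2)) ε₂
    (half_pos hδ) (by positivity) hε₂
  obtain ⟨ρ', hρ', hρ'1, n5⟩ := exists_small' (X := 1 / r₁ ^ 2 * (A * Λ ^ 2) * N) (by positivity)
    (b := min 1 (min (rc * ρ) (rs * ρ))) (by positivity)
  rw [le_min_iff, le_min_iff] at hρ'1
  obtain ⟨i, h1, h2, h3, h4, h5, h6⟩ := ((ev_left ha h.toTanSeq (-2)).and (hbad.and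
    ((hbar ρ' hρ').and ((hmass r₁ hr₁0 (by linarith only [hr₁1, hb.2.1, hr₁0])).and
      ((ev_excess hC hM hT ha hw.toIsW0 h (‖z‖ + 4) (mul_pos hε' hρ3)).and
        (ev_defect hT ha hw.toIsW0 h (R := ‖z‖ + 4) (by linarith only [hz0])
          (mul_pos hε' hρ3))))))).exists
  have hg := hC.rescG w a Z A C hw _ (h.pos i)
  have hI : Icc (-2 : ℝ) (-1) ⊆ Ioo (a / s i ^ 2) 0 := fun t ht =>
    ⟨h1.trans_le ht.1, by linarith only [ht.2]⟩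
  have hI2 : Icc (-1 - ρ ^ 2 - ρ ^ 2) (-1) ⊆ Icc (-2 : ℝ) (-1) :=
    Icc_subset_Icc_left (by linarith only [hρ2])
  have hball : ball z (7 * ρ) ⊆ ball 0 (‖z‖ + 4) := by
    refine ball_subset_ball' ?_
    rw [dist_zero_right]
    linarith only [hρ1]
  refine one_flow (N := N) (M := M) (ρ' := ρ') (B := B) hC hcell hg.toIsW0
    (fun c1 c2 => (hcore _ _ _ C hg).2.2 ψ hψ1 c1 c2 hψ3) hδ hc hc1 hCc hθ hΛ hε.le he he0 he1 hwt
    hρ hρ1 hρz hI hb.1.1 hr₁ hr₀ hr₀ρ hK hψ1 hψ2 hψ3 hψ4 (fun t x ht hn => ?_)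
    (fun t x => (le_abs_self _).trans (hMψ (t, x))) hB
    (fun t ht => ⟨fun x hx hxB y hy => (h2 t ht).1 x hx hxB y (hy.trans hb0), (h2 t ht).2⟩) h4
    (fun t ht z' hz' r hr => h3 t ht z' hz' r ⟨hr.1, hr.2.trans hb.1.2⟩)
    (fun F hF => hcount _ _ _ hg.toIsG0 z ρ _ _ hρ (by linarith only) (hI2.trans hI) F fun Q hQ =>
      ⟨(hF Q hQ).1, (hF Q hQ).2.trans hρ'1.2.1⟩)
    (fun F hF => hsmall _ _ _ hg.toIsG0 z ρ _ _ hρ (by linarith only) (hI2.trans hI) ?_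
      (DefLe.mono h6 hball hI2) F fun Q hQ => ⟨(hF Q hQ).1, (hF Q hQ).2.trans hρ'1.2.2⟩)
    (fun ε₃ hε₃ => hcell.tail _ _ _ A C hg.toIsG0 (δ / 2) z (2 * ρ) _ _ ε₃ (half_pos hδ) hε₃
      ((Icc_subset_Icc_left (by linarith only [hρ2])).trans hI))
    hε₁.le hε₂.le n1 n2 (by linarith only [n3]) n4 ?_
  · have h6 := hψ5 (resc w (s i)) t x ht hn
    by_cases h7 : t ∈ Icc (-1 - ρ ^ 2 / 2 - ρ ^ 2 / 6) (-1 - ρ ^ 2 / 2 + ρ ^ 2 / 6) ∧
      ‖x - ctr z t‖ ≤ r₁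
    · rw [if_pos h7] at h6
      rwa [indicator_of_mem (show (t, x) ∈ tube z _ r₁ from h7)]
    · rw [if_neg h7] at h6
      rwa [indicator_of_notMem (show (t, x) ∉ tube z _ r₁ from h7)]
  · rw [mul_div_cancel_left₀ _ hρ.ne']
    refine le_trans ?_ h5
    exact (lintegral_mono_set hI2).trans (lintegral_mono fun t => lintegral_mono_set hball)
  · have h6 : 0 ≤ 1 / r₁ ^ 2 * (A * Λ ^ 2) * N * ρ' := by positivity
    linarith only [n5, mul_le_mul_of_nonneg_left hρ'1.1 h6]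

end Vale.Agent.P218WE
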