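import Vale.Agent.P218UD.WCore

/-! The weight in the level, which is constant below the truncation level. -/

open MeasureTheory Set Filter Topology Metric
open scoped ENNReal NNReal RealInnerProductSpace ContDiff

namespace Vale.Agent.P218WE

open Vale.Agent.P218UA Vale.Agent.P218UM Vale.Agent.P218UD

/-- a primitive of the smooth step -/
noncomputable def prim (v : ℝ) : ℝ := ∫ u in (0 : ℝ)..v, Real.smoothTransition u

lemma hasDerivAt_prim (v : ℝ) : HasDerivAt prim (Real.smoothTransition v) v :=
  (Real.smoothTransition.continuous.integral_hasStrictDerivAt 0 v).hasDerivAt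

lemma contDiff_prim : ContDiff ℝ 2 prim := by
  have h : deriv prim = Real.smoothTransition := funext fun v => (hasDerivAt_prim v).deriv
  rw [show (2 : WithTop ℕ∞) = 1 + 1 from rfl, contDiff_succ_iff_deriv, h]
  exact ⟨fun v => (hasDerivAt_prim v).differentiableAt, by simp,
    Real.smoothTransition.contDiff (n := 1)⟩

lemma prim_zero {v : ℝ} (h : v ≤ 0) : prim v = 0 :=
  intervalIntegral.integral_zero_ae (Eventually.of_forall fun u hu =>
    Real.smoothTransition.zero_of_nonpos (by
      rw [uIoc_of_ge h] at hu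
      exact hu.2))

lemma prim_le {v : ℝ} (h : 0 ≤ v) : prim v ≤ v := by
  have h1 := intervalIntegral.integral_mono_on (f := Real.smoothTransition) (g := fun _ => (1 : ℝ))
    (μ := volume) h (Real.smoothTransition.continuous.intervalIntegrable _ _)
    (continuous_const.intervalIntegrable _ _) fun u _ => Real.smoothTransition.le_one u
  simpa [prim] using h1

lemma le_prim {v : ℝ} (h : 0 ≤ v) : v - 1 ≤ prim v := by
  have h0 : ∀ v, 0 ≤ v → 0 ≤ prim v := fun v hv =>
    intervalIntegral.integral_nonneg hv fun u _ => Real.smoothTransition.nonneg u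
  rcases le_total v 1 with h1 | h1
  · linarith [h0 v h]
  have h2 := intervalIntegral.integral_add_adjacent_intervals (μ := volume) (a := 0) (b := 1)
    (c := v) (Real.smoothTransition.continuous.intervalIntegrable _ _)
    (Real.smoothTransition.continuous.intervalIntegrable _ _)
  have h3 : ∫ u in (1 : ℝ)..v, Real.smoothTransition u = ∫ _ in (1 : ℝ)..v, (1 : ℝ) :=
    intervalIntegral.integral_congr fun u hu => Real.smoothTransition.one_of_one_le (by
      rw [uIcc_of_le h1] at hu
      exact hu.1)
  have h4 := h0 1 zero_le_one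
  rw [h3] at h2
  simp only [intervalIntegral.integral_const, smul_eq_mul, mul_one] at h2
  simp only [prim] at h4 ⊢
  linarith

/-- the weight in the level -/
noncomputable def gw (c a b y : ℝ) : ℝ := Real.exp (c / 2 * (b + prim (y - b) - a)) * s0 (y - a)

variable {c a b y : ℝ}

lemma contDiff_gw : ContDiff ℝ 2 (gw c a b) :=
  (contDiff_const.mul ((contDiff_const.add (contDiff_prim.comp
    (contDiff_id.sub contDiff_const))).sub contDiff_const)).exp.mul
    (contDiff_s0.comp (contDiff_id.sub contDiff_const))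

lemma gw_nonneg : 0 ≤ gw c a b y := mul_nonneg (Real.exp_pos _).le (s0_nonneg _)

lemma gw_zero (h : a ≤ y) : gw c a b y = 0 := by rw [gw, s0_eq_zero (by linarith), mul_zero]

lemma gw_le_gl (hc : 0 ≤ c) (h : b ≤ y) : gw c a b y ≤ gl c a y :=
  mul_le_mul_of_nonneg_right (Real.exp_le_exp.2 (mul_le_mul_of_nonneg_left
    (by linarith [prim_le (sub_nonneg.2 h)]) (by positivity))) (s0_nonneg _)

lemma gw_le_one (hc : 0 ≤ c) (hb : b ≤ a) : gw c a b y ≤ 1 := by
  rcases le_total b y with h | h
  · exact (gw_le_gl hc h).trans (gl_le_one hc)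
  · refine mul_le_one₀ (Real.exp_le_one_iff.2 ?_) (s0_nonneg _) (s0_le_one _)
    rw [prim_zero (sub_nonpos.2 h)]
    nlinarith

lemma gw_ge (hc : 0 ≤ c) (hc1 : c ≤ 1) (hb : b ≤ a - 2) (h : y ∈ Icc (a - 2) (a - 1)) :
    Real.exp (-2) ≤ gw c a b y := by
  rw [gw, s0_eq_one (by linarith [h.2]), mul_one]
  have h1 := le_prim (v := y - b) (by linarith [h.1])
  have h2 := prim_le (v := y - b) (by linarith [h.1])
  exact Real.exp_le_exp.2 (by nlinarith [h.1, h.2])

lemma deriv_gw_le : deriv (gw c a b) y ≤ c / 2 * Real.smoothTransition (y - b) * gw c a b y := by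
  have h1 : HasDerivAt (fun y => s0 (y - a)) (deriv s0 (y - a)) y :=
    (contDiff_s0.differentiable (by norm_num) _).hasDerivAt.comp_sub_const y _
  have h2 : HasDerivAt (gw c a b) _ y :=
    (((((hasDerivAt_prim (y - b)).comp_sub_const y b).const_add b).sub_const a).const_mul
      (c / 2)).exp.fun_mul h1
  rw [h2.deriv, gw]
  nlinarith [mul_nonpos_of_nonneg_of_nonpos (Real.exp_pos (c / 2 * (b + prim (y - b) - a))).le
    (deriv_s0_nonpos (y - a))]

lemma deriv_gw_le' (hc : 0 ≤ c) : deriv (gw c a b) y ≤ c / 2 * gw c a b y :=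
  deriv_gw_le.trans (mul_le_mul_of_nonneg_right (mul_le_of_le_one_right (by positivity)
    (Real.smoothTransition.le_one _)) gw_nonneg)

lemma deriv_gw_nonpos (h : y ≤ b) : deriv (gw c a b) y ≤ 0 := by
  have h1 := deriv_gw_le (c := c) (a := a) (b := b) (y := y)
  rwa [Real.smoothTransition.zero_of_nonpos (sub_nonpos.2 h), mul_zero, zero_mul] at h1

lemma lintegral_gw (hc : 0 < c) (hb : b ≤ a) {h : ℝ → ℝ}
    (hh : ∀ y, 0 ≤ h y ∧ h y ≤ 1 ∧ h y ≤ 21 * Real.exp (y - b)) :
    ∫⁻ y, ENNReal.ofReal (h y * gw c a b y) ≤ ENNReal.ofReal (2 / c + 63) := by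
  have h1 : ∀ y, ENNReal.ofReal (h y * gw c a b y)
      ≤ ENNReal.ofReal (gl c a y) + ENNReal.ofReal 63 * ENNReal.ofReal (gl 2 (b + 1) y) := by
    intro y
    rcases le_total b y with h2 | h2
    · exact (ENNReal.ofReal_le_ofReal ((mul_le_of_le_one_left gw_nonneg (hh y).2.1).trans
        (gw_le_gl hc.le h2))).trans le_self_add
    · refine le_trans ?_ le_add_self
      rw [← ENNReal.ofReal_mul (by norm_num)]
      refine ENNReal.ofReal_le_ofReal ((mul_le_of_le_one_right (hh y).1
        (gw_le_one hc.le hb)).trans ((hh y).2.2.trans ?_))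
      rw [gl, s0_eq_one (by linarith), mul_one, show y - b = 1 + 2 / 2 * (y - (b + 1)) by ring,
        Real.exp_add]
      nlinarith [Real.exp_one_lt_d9, Real.exp_pos (2 / 2 * (y - (b + 1)))]
  refine (lintegral_mono h1).trans ?_
  rw [lintegral_add_left contDiff_gl.continuous.measurable.ennreal_ofReal,
    lintegral_const_mul' _ _ ENNReal.ofReal_ne_top, ENNReal.ofReal_add (by positivity) (by norm_num)]
  refine add_le_add (lintegral_gl hc) ((mul_le_mul_right (lintegral_gl two_pos) _).trans ?_)
  simp

end Vale.Agent.P218WE
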