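import Vale.Agent.P218WA.Props
import Vale.Agent.P218UD.Loss

/-! The space-time integrals of the gain and of the losses, for weak flows. -/

open MeasureTheory Set Filter Topology Metric
open scoped ENNReal NNReal RealInnerProductSpace ContDiff

namespace Vale.Agent.P218WE

open Vale.Agent.P218UA Vale.Agent.P218UM Vale.Agent.P218UD Vale.Agent.P218WA

/-- gain is at most loss plus the error -/
theorem lint_le_of_int' {α : Type*} [MeasurableSpace α] {μ : Measure α} {f g l : α → ℝ} {η : ℝ}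
    (hη : 0 ≤ η) (hf : Integrable f μ) (h0 : -η ≤ ∫ p, f p ∂μ)
    (h : ∀ᵐ p ∂μ, 0 ≤ g p ∧ 0 ≤ l p ∧ f p + g p ≤ l p) :
    ∫⁻ p, ENNReal.ofReal (g p) ∂μ ≤ ∫⁻ p, ENNReal.ofReal (l p) ∂μ + ENNReal.ofReal η := by
  have hm := hf.aemeasurable
  have h1 : ∫⁻ p, ENNReal.ofReal (f p) ∂μ ≠ ⊤ := hf.lintegral_lt_top.ne
  have h2 : ∫⁻ p, ENNReal.ofReal (-f p) ∂μ ≠ ⊤ := hf.neg.lintegral_lt_top.ne
  have h3 : ∫⁻ p, ENNReal.ofReal (-f p) ∂μ
      ≤ ENNReal.ofReal η + ∫⁻ p, ENNReal.ofReal (f p) ∂μ := by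
    rw [integral_eq_lintegral_pos_part_sub_lintegral_neg_part hf] at h0
    refine (ENNReal.toReal_le_toReal h2 (ENNReal.add_ne_top.2 ⟨ENNReal.ofReal_ne_top, h1⟩)).1 ?_
    rw [ENNReal.toReal_add ENNReal.ofReal_ne_top h1, ENNReal.toReal_ofReal hη]
    linarith
  have h4 : ∫⁻ p, (ENNReal.ofReal (g p) + ENNReal.ofReal (f p)) ∂μ
      ≤ ∫⁻ p, (ENNReal.ofReal (l p) + ENNReal.ofReal (-f p)) ∂μ := by
    refine lintegral_mono_ae (h.mono fun p ⟨hg, hl, hp⟩ => ?_)
    rcases le_total 0 (f p) with hf0 | hf0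
    · rw [← ENNReal.ofReal_add hg hf0]
      exact (ENNReal.ofReal_le_ofReal (by linarith)).trans le_self_add
    · rw [ENNReal.ofReal_of_nonpos hf0, add_zero, ← ENNReal.ofReal_add hl (by linarith)]
      exact ENNReal.ofReal_le_ofReal (by linarith)
  have hm' : AEMeasurable (fun p => ENNReal.ofReal (-f p)) μ := hm.neg.ennreal_ofReal
  rw [lintegral_add_right' _ hm.ennreal_ofReal, lintegral_add_right' _ hm'] at h4
  refine (ENNReal.add_le_add_iff_right h1).1 (h4.trans ?_)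
  rw [add_assoc]
  exact add_le_add le_rfl h3

variable {w : ℝ → E3 → ℝ} {I J Z : Set ℝ} {A : ℝ}

lemma stm_le (hC : CalcW) (hw : IsW0 w I Z A) {F : ℝ × E3 → ℝ≥0∞} (hF : Measurable F) {S : Set ℝ}
    (hS : MeasurableSet S) {b : ℝ → ℝ≥0∞} (h0 : ∀ t, t ∉ S → ∀ x, F (t, x) = 0)
    (h : ∀ t ∈ I, t ∈ S → ∫⁻ x, F (t, x) ∂(ar (w t)) ≤ b t) :
    ∫⁻ p, F p ∂(stm w I) ≤ ∫⁻ t in S, b t := by
  rw [hC.stm_lint w I Z A hw F hF, ← lintegral_indicator hS]
  refine le_trans (setLIntegral_mono' hw.isOpen.measurableSet fun t ht => ?_)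
    (setLIntegral_le_lintegral I _)
  by_cases hs : t ∈ S
  · rw [indicator_of_mem hs]
    exact h t ht hs
  · simp [h0 t hs]

lemma le_stm (hC : CalcW) (hw : IsW0 w I Z A) {F : ℝ × E3 → ℝ≥0∞} (hF : Measurable F) {S : Set ℝ}
    (hS : MeasurableSet S) (hSI : S ⊆ I) {b : ℝ≥0∞}
    (h : ∀ t ∈ S, t ∉ Z → b ≤ ∫⁻ x, F (t, x) ∂(ar (w t))) :
    b * volume S ≤ ∫⁻ p, F p ∂(stm w I) := by
  rw [hC.stm_lint w I Z A hw F hF, ← measure_sdiff_null hw.null, ← setLIntegral_const]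
  exact (setLIntegral_mono' (hS.diff hw.closed.measurableSet) fun t ht => h t ht.1 ht.2).trans
    (lintegral_mono_set (sdiff_subset.trans hSI))

lemma gain_ge (hC : CalcW) (hw : IsW0 w I Z A) (z : E3) (hJ : MeasurableSet J) (hJI : J ⊆ I)
    {r b m : ℝ} (hb : 0 ≤ b)
    (h : ∀ t ∈ J, t ∉ Z → ENNReal.ofReal m ≤ ar (w t) (closedBall (ctr z t) r)) :
    ENNReal.ofReal (b * m) * volume J
      ≤ ∫⁻ p, ENNReal.ofReal ((tube z J r).indicator (fun _ => b) p) ∂(stm w I) := by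
  refine le_stm hC hw (measurable_const.indicator (measurableSet_tube z hJ r)).ennreal_ofReal hJ hJI
    fun t ht hZ => ?_
  rw [ENNReal.ofReal_mul hb]
  refine (mul_le_mul_right (h t ht hZ) _).trans ?_
  rw [← lintegral_indicator_const measurableSet_closedBall]
  refine lintegral_mono fun x => ?_
  by_cases hx : x ∈ closedBall (ctr z t) r
  · rw [indicator_of_mem hx, indicator_of_mem (show (t, x) ∈ tube z J r from
      ⟨ht, mem_closedBall_iff_norm.1 hx⟩)]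
  · simp [indicator_of_notMem hx]

lemma loss1 (hC : CalcW) (hw : IsW0 w I Z A) (z : E3) (hJ : MeasurableSet J) {r₀ r₁ M : ℝ}
    (hr₀ : 0 < r₀) (hr₁ : 0 < r₁) (hM : 0 < M) :
    ∫⁻ p, ENNReal.ofReal ((tube z J r₀).indicator
      (fun p => M / √(‖p.2 - ctr z p.1‖ ^ 2 + r₁ ^ 2)) p) ∂(stm w I)
      ≤ ENNReal.ofReal (4 * M * A * r₀) * volume J := by
  rw [← setLIntegral_const]
  refine stm_le hC hw (measurable_l1 z hJ r₀ r₁ M).ennreal_ofReal hJ
    (fun t ht x => ?_) fun t ht _ => ?_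
  · rw [indicator_of_notMem fun h => ht h.1, ENNReal.ofReal_zero]
  refine lint_inv_dist (x := ctr z t) (hw.ratio t ht) (zero_le_one.trans hw.one_le) hr₀ hM
    (fun y => ?_) fun y hy => ?_
  · have h1 : 0 < √(‖y - ctr z t‖ ^ 2 + r₁ ^ 2) := Real.sqrt_pos.2 (by positivity)
    have h2 : ‖y - ctr z t‖ ≤ √(‖y - ctr z t‖ ^ 2 + r₁ ^ 2) :=
      Real.le_sqrt_of_sq_le (by linarith [sq_nonneg r₁])
    refine (mul_le_mul (indicator_le_self' (fun p _ => by positivity) (t, y)) h2 (norm_nonneg _)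
      (by positivity)).trans (le_of_eq ?_)
    exact div_mul_cancel₀ _ h1.ne'
  · rw [indicator_of_notMem fun h => hy.not_ge h.2]

lemma loss2 (hC : CalcW) (hw : IsW0 w I Z A) (hJ : MeasurableSet J) {B : Set (ℝ × E3)}
    (hB : MeasurableSet B) {b m : ℝ} (hb : 0 ≤ b)
    (h : ∀ t ∈ J, ar (w t) {x | (t, x) ∈ B} ≤ ENNReal.ofReal m) :
    ∫⁻ p, ENNReal.ofReal ((B ∩ J ×ˢ univ).indicator (fun _ => b) p) ∂(stm w I)
      ≤ ENNReal.ofReal (b * m) * volume J := by
  rw [← setLIntegral_const]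
  refine stm_le hC hw (measurable_const.indicator (hB.inter (hJ.prod .univ))).ennreal_ofReal hJ
    (fun t ht x => ?_) fun t _ ht => ?_
  · rw [indicator_of_notMem fun h => ht h.2.1, ENNReal.ofReal_zero]
  rw [ENNReal.ofReal_mul hb]
  refine le_trans ?_ (mul_le_mul_right (h t ht) _)
  rw [← lintegral_indicator_const
    (show MeasurableSet {x | (t, x) ∈ B} from measurable_prodMk_left hB)]
  refine lintegral_mono fun x => ?_
  by_cases hx : (t, x) ∈ B
  · rw [indicator_of_mem (show (t, x) ∈ B ∩ J ×ˢ univ from ⟨hx, ht, trivial⟩),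
      indicator_of_mem (show x ∈ {x | (t, x) ∈ B} from hx)]
  · simp [indicator_of_notMem (show (t, x) ∉ B ∩ J ×ˢ univ from fun h => hx h.1)]

/-- the total loss caused by one lattice ball -/
lemma lossQ (hC : CalcW) (hw : IsW0 w I Z A) {δ Λ ε b₁ b₂ b₃ ρ' : ℝ} {e : E3 → ℝ} {Q : P218UD.Lat}
    (hl : MeasurableSet (loud w (δ / 2) J Q)) (hΛ : 1 ≤ Λ) (hε : 0 ≤ ε) (he : Measurable e)
    (he0 : ∀ x, 0 ≤ e x)
    (he1 : ∀ (μ : Measure E3) (A : ℝ), 0 ≤ A → AR μ A → ∀ (z : E3) (r : ℝ), 0 < r →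
      ∫⁻ x, ENNReal.ofReal (e (r⁻¹ • (x - z)) / r ^ 2) ∂μ ≤ ENNReal.ofReal (ε * A))
    (h1 : 0 ≤ b₁) (h2 : 0 ≤ b₂) (h3 : 0 ≤ b₃) (hQ : rQ Q ≤ ρ') :
    ∫⁻ p, ENNReal.ofReal ((cellQ w δ Λ J Q).indicator (fun p => b₁ * eQ e Q p.2
        + b₂ * |deriv (bbar w (zQ Q) (rQ Q)) p.1| + b₃) p) ∂(stm w I)
      ≤ ENNReal.ofReal (b₁ * (ε * A) + b₃ * (A * (Λ * ρ') ^ 2)) * volume (loud w (δ / 2) J Q)
        + ENNReal.ofReal (b₂ * (A * Λ ^ 2)) * ∫⁻ t in loud w (δ / 2) J Q,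
          ENNReal.ofReal (rQ Q ^ 2 * |deriv (bbar w (zQ Q) (rQ Q)) t|) := by
  have hA : 0 ≤ A := zero_le_one.trans hw.one_le
  have hr := rQ_pos Q
  have hem : Measurable (eQ e Q) := (he.comp (by fun_prop)).div_const _
  have heQ : ∀ x, 0 ≤ eQ e Q x := fun x => div_nonneg (he0 _) (sq_nonneg _)
  rw [← setLIntegral_const, ← lintegral_const_mul' _ _ ENNReal.ofReal_ne_top,
    ← lintegral_add_left measurable_const]
  refine stm_le hC hw (Measurable.indicator ((((hem.comp measurable_snd).const_mul _).add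
    ((((measurable_deriv _).comp measurable_fst).abs).const_mul _)).add_const _)
    (hl.prod measurableSet_ball)).ennreal_ofReal hl (fun t ht x => ?_) fun t ht _ => ?_
  · rw [indicator_of_notMem fun h => ht h.1, ENNReal.ofReal_zero]
  set D := |deriv (bbar w (zQ Q) (rQ Q)) t| with hD
  have hD0 : 0 ≤ D := abs_nonneg _
  have h4 : ∀ x, ENNReal.ofReal ((cellQ w δ Λ J Q).indicator (fun p => b₁ * eQ e Q p.2
      + b₂ * |deriv (bbar w (zQ Q) (rQ Q)) p.1| + b₃) (t, x))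
      ≤ ENNReal.ofReal b₁ * ENNReal.ofReal (eQ e Q x) + (closedBall (zQ Q) (Λ * rQ Q)).indicator
        (fun _ => ENNReal.ofReal (b₂ * D + b₃)) x := fun x => by
    by_cases hx : (t, x) ∈ cellQ w δ Λ J Q
    · rw [indicator_of_mem hx, indicator_of_mem (ball_subset_closedBall hx.2),
        ← ENNReal.ofReal_mul h1, ← ENNReal.ofReal_add (mul_nonneg h1 (heQ x)) (by positivity),
        add_assoc]
    · simp [indicator_of_notMem hx]
  refine (lintegral_mono h4).trans ?_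
  rw [lintegral_add_left (hem.ennreal_ofReal.const_mul _),
    lintegral_const_mul' _ _ ENNReal.ofReal_ne_top,
    lintegral_indicator_const measurableSet_closedBall]
  refine (add_le_add (mul_le_mul_right (he1 _ A hA (hw.ratio t ht) _ _ hr) _)
    (mul_le_mul_right (hw.ratio t ht _ _ (by positivity)) _)).trans ?_
  rw [← ENNReal.ofReal_mul h1, ← ENNReal.ofReal_mul (by positivity),
    ← ENNReal.ofReal_mul (by positivity), ← ENNReal.ofReal_add (by positivity) (by positivity),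
    ← ENNReal.ofReal_add (by positivity) (by positivity)]
  refine ENNReal.ofReal_le_ofReal ?_
  have h5 : b₃ * (A * (Λ * rQ Q) ^ 2) ≤ b₃ * (A * (Λ * ρ') ^ 2) := by gcongr
  nlinarith

/-- the additional loss caused by a lattice ball below the truncation level -/
lemma lossQ2 (hC : CalcW) (hw : IsW0 w I Z A) {δ Λ b : ℝ} {Q : P218UD.Lat}
    (hl : MeasurableSet (loud w (δ / 2) J Q)) (hΛ : 1 ≤ Λ) (hb : 0 ≤ b) :
    ∫⁻ p, ENNReal.ofReal ((cellQ w δ Λ J Q).indicator (fun _ => b / rQ Q ^ 2) p) ∂(stm w I)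
      ≤ ENNReal.ofReal (b * (A * Λ ^ 2)) * volume (loud w (δ / 2) J Q) := by
  have hA : 0 ≤ A := zero_le_one.trans hw.one_le
  have hr := rQ_pos Q
  rw [← setLIntegral_const]
  refine stm_le hC hw (measurable_const.indicator (hl.prod measurableSet_ball)).ennreal_ofReal hl
    (fun t ht x => ?_) fun t ht _ => ?_
  · rw [indicator_of_notMem fun h => ht h.1, ENNReal.ofReal_zero]
  have h4 : ∀ x, ENNReal.ofReal ((cellQ w δ Λ J Q).indicator (fun _ => b / rQ Q ^ 2) (t, x))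
      ≤ (closedBall (zQ Q) (Λ * rQ Q)).indicator (fun _ => ENNReal.ofReal (b / rQ Q ^ 2)) x :=
    fun x => by
      by_cases hx : (t, x) ∈ cellQ w δ Λ J Q
      · rw [indicator_of_mem hx, indicator_of_mem (ball_subset_closedBall hx.2)]
      · simp [indicator_of_notMem hx]
  refine (lintegral_mono h4).trans ?_
  rw [lintegral_indicator_const measurableSet_closedBall]
  refine (mul_le_mul_right (hw.ratio t ht _ _ (by positivity)) _).trans (le_of_eq ?_)
  rw [← ENNReal.ofReal_mul (by positivity)]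
  congr 1
  field_simp

end Vale.Agent.P218WE
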