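import Vale.Agent.P218WA.Props
import Vale.Agent.P218WE.Lev

/-! The differential inequality for the truncated separation functional with the weight which cuts
out the loud lattice balls, below a fixed level. -/

open MeasureTheory Set Filter Topology Metric
open scoped ENNReal NNReal RealInnerProductSpace ContDiff

namespace Vale.Agent.P218WE

open Vale.Agent.P218UA Vale.Agent.P218UM Vale.Agent.P218UD Vale.Agent.P218WA
open Vale.Agent.P218.H63 (lap hessSq)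

/-- the last conclusion of `CoreW`, for one flow, one test function and one truncation -/
def CoreAtW (A θ σ δ c C : ℝ) (w : ℝ → E3 → ℝ) (I : Set ℝ) (ψ : ℝ → E3 → ℝ) (η ys y₀ : ℝ)
    (h : ℝ → ℝ) : Prop :=
  Continuous h ∧ (∀ y, 0 ≤ h y ∧ h y ≤ 1 ∧ h y ≤ 21 * Real.exp (y - ys)) ∧ (∀ y ≤ y₀, h y = 0) ∧
    (∀ y, ys ≤ y → h y = 1) ∧
    ∀ (J : Set ℝ) (γ : ℝ → E3 → ℝ → ℝ) (q : ℝ × E3 → ℝ) (y₁ : ℝ), IsOpen J → J ⊆ I →
      tsupport (fun p : ℝ × E3 => ψ p.1 p.2) ⊆ J ×ˢ univ →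
      ContDiffOn ℝ 2 (fun p : ℝ × E3 × ℝ => γ p.1 p.2.1 p.2.2) (J ×ˢ univ) →
      (∀ t ∈ J, ∀ x y, 0 ≤ γ t x y ∧ γ t x y ≤ 1) →
      (∀ t ∈ J, ∀ x y, y₁ ≤ y → γ t x y = 0) →
      Measurable q → (∃ B, ∀ p, 0 ≤ q p ∧ q p ≤ B) →
      (∀ p ∈ tsupport (fun p : ℝ × E3 => ψ p.1 p.2), w p.1 p.2 = 0 → ∀ y, y₀ ≤ y →
        ((p.1, p.2, y) ∈ closure {p' : ℝ × E3 × ℝ | p'.1 ∈ J ∧ γ p'.1 p'.2.1 p'.2.2 ≠ 0} →
          Quiet w I δ p.1 p.2 y) ∧
        ‖gradient (fun x => γ p.1 x y) p.2‖ ^ 2 ≤ γ p.1 p.2 y * q p ∧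
        deriv (γ p.1 p.2) y - c * γ p.1 p.2 y ≤ Real.exp (2 * y) * q p ∧
        (y ≤ ys → deriv (γ p.1 p.2) y ≤ Real.exp (2 * y) * q p)) →
      Integrable (fun p : ℝ × E3 => GG w I A σ θ (fun t x y => h y * γ t x y) p.1 p.2
        * adj w ψ p.1 p.2) (stm w I) ∧
      Integrable (fun p : ℝ × E3 => ψ p.1 p.2 * ∫ y in Om w I A σ θ p.1 p.2,
        h y * heat w (fun t x => γ t x y) p.1 p.2) (stm w I) ∧
      -η ≤ ∫ p, (GG w I A σ θ (fun t x y => h y * γ t x y) p.1 p.2 * adj w ψ p.1 p.2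
        + ψ p.1 p.2 * ((∫ y in Om w I A σ θ p.1 p.2,
          h y * heat w (fun t x => γ t x y) p.1 p.2) + C * q p)) ∂(stm w I)

theorem wcore (hC : CalcW) (hcell : CellW) {w : ℝ → E3 → ℝ} {I J Z : Set ℝ}
    {A θ σ δ c Cc Λ Cw a ρ η ys y₀ : ℝ} {e : E3 → ℝ} {z : E3} {ψ : ℝ → E3 → ℝ} {h : ℝ → ℝ}
    (hw : IsW0 w I Z A) (hcore : CoreAtW A θ σ δ c Cc w I ψ η ys y₀ h) (hys : ys ≤ a - 2)
    (hδ : 0 < δ) (hc : 0 < c) (hc1 : c ≤ 1)
    (he : Measurable e) (he0 : ∀ x, 0 ≤ e x ∧ e x ≤ Cw) (hwt : WtAt (c / 2) Λ Cw e)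
    (hJ : IsOpen J) (hJI : ∀ t ∈ J, Icc (t - ρ ^ 2) t ⊆ I) (ha : Real.exp (a + 4) ≤ ρ)
    (hψ : ContDiff ℝ 2 fun p : ℝ × E3 => ψ p.1 p.2)
    (hψc : HasCompactSupport fun p : ℝ × E3 => ψ p.1 p.2)
    (hψs : tsupport (fun p : ℝ × E3 => ψ p.1 p.2) ⊆ J ×ˢ ball z ρ) (hψ0 : ∀ t x, 0 ≤ ψ t x) :
    ∃ (F F₂ : Finset P218UD.Lat) (f G : ℝ × E3 → ℝ),
      (∀ Q ∈ F, zQ Q ∈ ball z (2 * ρ) ∧ rQ Q ≤ Real.exp (a + 4)) ∧
      (∀ Q ∈ F₂, Q ∈ F ∧ (Q.1 : ℝ) ≤ ys + 4) ∧ Integrable f (stm w I) ∧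
      -η ≤ ∫ p, f p ∂(stm w I) ∧ (∀ p, p ∉ tsupport (fun p : ℝ × E3 => ψ p.1 p.2) → f p = 0) ∧
      ∀ p ∈ tsupport (fun p : ℝ × E3 => ψ p.1 p.2), w p.1 p.2 = 0 →
        0 ≤ G p ∧ G p ≤ 2 / c + 63 ∧ ((∀ y ≤ a, y ∉ Om w I A σ θ p.1 p.2) → G p = 0) ∧
        (¬Reg (w p.1) θ p.2 (Real.exp (a - 2)) → (∀ Q ∈ F, p ∉ cellQ w δ Λ J Q) →
          Real.exp (-2) ≤ G p) ∧
        f p ≤ G p * adj w ψ p.1 p.2 + ψ p.1 p.2 * (∑ Q ∈ F, (cellQ w δ Λ J Q).indicator
          (fun p => (1 + Cc) * eQ e Q p.2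
            + Cw * (CXi / δ) * |deriv (bbar w (zQ Q) (rQ Q)) p.1|) p
          + Cc * ∑ Q ∈ F₂, (cellQ w δ Λ J Q).indicator (fun _ => Real.exp 8 / rQ Q ^ 2) p) := by
  classical
  obtain ⟨hhc, hh, hh0, hh1, hcore⟩ := hcore
  have hya : ys ≤ a := by linarith only [hys]
  have hJI' : J ⊆ I := fun t ht => hJI t ht ⟨by nlinarith [sq_nonneg ρ], le_rfl⟩
  set K := tsupport fun p : ℝ × E3 => ψ p.1 p.2 with hK
  have hKJ : K ⊆ J ×ˢ univ := fun p hp => ⟨(hψs hp).1, trivial⟩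
  have hKI : K ⊆ I ×ˢ univ := fun p hp => ⟨hJI' (hψs hp).1, trivial⟩
  have hψz : ∀ p, p ∉ K → ψ p.1 p.2 = 0 := fun p hp =>
    image_eq_zero_of_notMem_tsupport (f := fun p : ℝ × E3 => ψ p.1 p.2) hp
  set F := (finite_lat y₀ (a + 4) z (2 * ρ)).toFinset with hF
  have hmF : ∀ Q, Q ∈ F ↔ y₀ ≤ Q.1 ∧ (Q.1 : ℝ) ≤ a + 4 ∧ zQ Q ∈ ball z (2 * ρ) := fun Q => by
    rw [hF, Finite.mem_toFinset]
    rfl
  set F₂ := F.filter fun Q => (Q.1 : ℝ) ≤ ys + 4 with hF₂
  have hr : ∀ Q ∈ F, rQ Q ≤ Real.exp (a + 4) := fun Q hQ => Real.exp_le_exp.2 ((hmF Q).1 hQ).2.1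
  have hwin : ∀ Q ∈ F, ∀ t ∈ J, Icc (t - rQ Q ^ 2) t ⊆ I := fun Q hQ t ht =>
    (Icc_subset_Icc_left (by
      have := pow_le_pow_left₀ (rQ_pos Q).le ((hr Q hQ).trans ha) 2
      linarith)).trans (hJI t ht)
  have hsm : ∀ Q ∈ F, ∀ t ∈ J, ContDiffAt ℝ ∞ (bbar w (zQ Q) (rQ Q)) t := fun Q hQ t ht =>
    hcell.smooth w I Z A hw _ _ t (rQ_pos Q) (hwin Q hQ t ht)
  obtain ⟨γ₀, hγ, hγ'⟩ := hwt F (bQ w δ) J hJ
    (fun Q hQ t ht => (contDiffAt_bQ (hsm Q hQ t ht)).contDiffWithinAt) fun _ _ _ _ => bQ_mem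
  have hγa : ∀ t ∈ J, ∀ x y, ContDiffAt ℝ 2 (fun p : ℝ × E3 × ℝ => γ₀ p.1 p.2.1 p.2.2) (t, x, y) :=
    fun t ht x y => hγ.contDiffAt ((hJ.prod isOpen_univ).mem_nhds ⟨ht, trivial⟩)
  set γ : ℝ → E3 → ℝ → ℝ := fun t x y => gw c a ys y * γ₀ t x y with hγd
  have hγ0 : ∀ t ∈ J, ∀ x y, 0 ≤ γ t x y := fun t ht x y =>
    mul_nonneg gw_nonneg ((hγ' t ht x).1 y).1
  have hγ1 : ∀ t x y, a ≤ y → γ t x y = 0 := fun t x y hy => by
    simp only [hγd, gw_zero hy, zero_mul]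
  have hγ2 : ∀ t ∈ J, ∀ x y, γ t x y ≤ gw c a ys y := fun t ht x y =>
    mul_le_of_le_one_right gw_nonneg ((hγ' t ht x).1 y).2
  set q₁ : ℝ × E3 → ℝ := fun p => ∑ Q ∈ F, (cellQ w δ Λ J Q).indicator (fun p => eQ e Q p.2) p
    with hq₁
  set q₂ : ℝ × E3 → ℝ := fun p =>
    ∑ Q ∈ F₂, (cellQ w δ Λ J Q).indicator (fun _ => Real.exp 8 / rQ Q ^ 2) p with hq₂
  set q : ℝ × E3 → ℝ := fun p => q₁ p + q₂ p with hq
  have heQ : ∀ Q x, 0 ≤ eQ e Q x := fun Q x => div_nonneg (he0 _).1 (sq_nonneg _)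
  have hq10 : ∀ p, 0 ≤ q₁ p := fun p =>
    Finset.sum_nonneg fun Q _ => indicator_nonneg (fun p _ => heQ Q p.2) p
  have hq20 : ∀ p, 0 ≤ q₂ p := fun p =>
    Finset.sum_nonneg fun Q _ => indicator_nonneg (fun p _ => by positivity) p
  have hq0 : ∀ p, 0 ≤ q p := fun p => add_nonneg (hq10 p) (hq20 p)
  have hq1 : ∀ p, q₁ p ≤ q p := fun p => le_add_of_nonneg_right (hq20 p)
  have hqB : ∀ p, q p ≤ ∑ Q ∈ F, Cw / rQ Q ^ 2 + ∑ Q ∈ F₂, Real.exp 8 / rQ Q ^ 2 := fun p =>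
    add_le_add (Finset.sum_le_sum fun Q _ =>
      (indicator_le_self' (fun p _ => heQ Q p.2) p).trans
        (div_le_div_of_nonneg_right (he0 _).2 (sq_nonneg _)))
      (Finset.sum_le_sum fun Q _ => indicator_le_self' (fun p _ => by positivity) p)
  have hcm : ∀ Q ∈ F, MeasurableSet (cellQ w δ Λ J Q) := fun Q hQ =>
    (measurableSet_loud hJ (hsm Q hQ)).prod measurableSet_ball
  have hqm : Measurable q := (Finset.measurable_sum F fun Q hQ =>
    Measurable.indicator ((he.comp (by fun_prop)).div_const _) (hcm Q hQ)).add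
    (Finset.measurable_sum F₂ fun Q hQ =>
      measurable_const.indicator (hcm Q (Finset.mem_filter.1 hQ).1))
  have hsum : ∀ (p : ℝ × E3) (g : P218UD.Lat → ℝ × E3 → ℝ),
      ∑ Q ∈ F with p ∈ cellQ w δ Λ J Q, g Q p = ∑ Q ∈ F, (cellQ w δ Λ J Q).indicator (g Q) p :=
    fun p g => by simp only [Finset.sum_filter, indicator_apply]
  have hG := fun (p : ℝ × E3) (hp : p ∈ K) => (hγ' p.1 (hψs hp).1 p.2).2.2.2 a
    (F.filter fun Q => p ∈ cellQ w δ Λ J Q) (Finset.filter_subset _ _) fun Q hQ _ h1 h2 =>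
      Finset.mem_filter.2 ⟨hQ, ⟨(hψs hp).1, le_of_bQ_ne hδ h1⟩, mem_ball_iff_norm.2 h2⟩
  have hqe : ∀ p : ℝ × E3, ∑ Q ∈ F with p ∈ cellQ w δ Λ J Q,
      e ((rQ Q)⁻¹ • (p.2 - zQ Q)) / rQ Q ^ 2 = q₁ p := fun p => hsum p fun Q p => eQ e Q p.2
  have hder : ∀ p ∈ K, ∀ y, deriv (γ p.1 p.2) y = deriv (gw c a ys) y * γ₀ p.1 p.2 y
      + gw c a ys y * deriv (γ₀ p.1 p.2) y := fun p hp y =>
    ((contDiff_gw.differentiable (by norm_num) y).hasDerivAt.fun_mul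
      ((cd_y (hγa _ (hψs hp).1 p.2 y)).differentiableAt (by norm_num)).hasDerivAt).deriv
  obtain ⟨i1, i2, i3⟩ := hcore J γ q a hJ hJI' hKJ
    ((contDiff_gw.comp (contDiff_snd.comp contDiff_snd)).contDiffOn.mul hγ)
    (fun t ht x y => ⟨hγ0 t ht x y, (hγ2 t ht x y).trans (gw_le_one hc.le hya)⟩)
    (fun t _ => hγ1 t) hqm ⟨_, fun p => ⟨hq0 p, hqB p⟩⟩ fun p hp h0 y hy => ⟨fun hcl => by
      have h1 : y ≤ a := by
        have h2 : IsClosed {p' : ℝ × E3 × ℝ | p'.2.2 ≤ a} :=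
          isClosed_le (continuous_snd.comp continuous_snd) continuous_const
        exact closure_minimal (t := {p' : ℝ × E3 × ℝ | p'.2.2 ≤ a}) (fun p' hp' => by
          by_contra h3
          exact hp'.2 (hγ1 _ _ _ (not_le.1 h3).le)) h2 hcl
      refine quiet_of_closure hδ (F := F) (γ₀ := γ₀) (fun t ht x => (hγ' t ht x).2.1)
        (fun t _ x y h => by simp only [hγd, h, mul_zero]) (fun Q h2 h3 h4 => ?_) hcl
      have h5 : Q ∈ F := by
        refine (hmF Q).2 ⟨by linarith, by linarith, ?_⟩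
        have h6 : rQ Q ≤ ρ := (Real.exp_le_exp.2 (by linarith)).trans ha
        have h7 : dist p.2 z < ρ := (hψs hp).2
        have h8 := dist_triangle (zQ Q) p.2 z
        rw [dist_comm (zQ Q) p.2, dist_eq_norm p.2 (zQ Q)] at h8
        rw [mem_ball]
        linarith
      exact ⟨h5, hwin Q h5 _ (hψs hp).1, (hsm Q h5 _ (hψs hp).1).continuousAt⟩, by
      have h1 := (slice_x (f := fun s z => γ₀ s z y)
        (cd_tx (hγa _ (hψs hp).1 p.2 y))).differentiableAt (by norm_num)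
      simp only [hγd]
      rw [gradient_const_mul _ h1, norm_smul, mul_pow, Real.norm_eq_abs, sq_abs]
      rcases le_total y a with h2 | h2
      · have h3 := ((hG p hp).1 y h2).1
        rw [hqe] at h3
        have h4 := h3.trans (mul_le_mul_of_nonneg_left (hq1 p) ((hγ' _ (hψs hp).1 p.2).1 y).1)
        have h5 : gw c a ys y ^ 2 ≤ gw c a ys y := by
          nlinarith [gw_nonneg (c := c) (a := a) (b := ys) (y := y),
            gw_le_one (y := y) hc.le hya]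
        rw [mul_assoc]
        exact mul_le_mul h5 h4 (sq_nonneg _) gw_nonneg
      · simp [gw_zero h2], by
      rw [hder p hp]
      simp only [hγd]
      have h3 := mul_le_mul_of_nonneg_right (deriv_gw_le' (a := a) (b := ys) (y := y) hc.le)
        ((hγ' _ (hψs hp).1 p.2).1 y).1
      have h4 : 0 ≤ Real.exp (2 * y) * q p := mul_nonneg (Real.exp_pos _).le (hq0 p)
      rcases le_total y a with h5 | h5
      · have h6 := ((hG p hp).1 y h5).2
        rw [hqe] at h6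
        have h7 := mul_le_mul_of_nonneg_left
          (h6.trans (mul_le_mul_of_nonneg_left (hq1 p) (Real.exp_pos _).le))
          (gw_nonneg (c := c) (a := a) (b := ys) (y := y))
        have h8 := mul_le_of_le_one_left h4 (gw_le_one (y := y) hc.le hya)
        linarith
      · rw [gw_zero h5] at h3 ⊢
        linarith, fun h5 => by
      rw [hder p hp]
      have h2 := (hγ' _ (hψs hp).1 p.2).1
      have h3 := mul_nonpos_of_nonpos_of_nonneg (deriv_gw_nonpos (c := c) (a := a) h5) (h2 y).1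
      have h4 : 0 ≤ Real.exp (2 * y) * q p := mul_nonneg (Real.exp_pos _).le (hq0 p)
      have h6 : deriv (γ₀ p.1 p.2) y ≤ Real.exp (2 * y) * q p := by
        by_cases h7 : ∀ Q ∈ F, (Q.1 : ℝ) < y + 4 → bQ w δ Q p.1 = 0 ∨ Λ * rQ Q ≤ ‖p.2 - zQ Q‖
        · have h8 := (hγ' _ (hψs hp).1 p.2).2.2.1 y h7
          have h9 : IsLocalMax (γ₀ p.1 p.2) y :=
            Eventually.of_forall fun y' => h8 ▸ (h2 y').2
          rwa [h9.deriv_eq_zero]
        push Not at h7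
        obtain ⟨Q, h7, h8, h9, h10⟩ := h7
        have h11 := ((hG p hp).1 y (h5.trans hya)).2
        rw [hqe] at h11
        have h12 := Finset.single_le_sum (s := F₂)
          (f := fun Q => (cellQ w δ Λ J Q).indicator (fun _ => Real.exp 8 / rQ Q ^ 2) p)
          (fun Q _ => indicator_nonneg (fun _ _ => by positivity) p)
          (Finset.mem_filter.2 ⟨h7, by linarith only [h8, h5]⟩ : Q ∈ F₂)
        have h13 : p ∈ cellQ w δ Λ J Q :=
          ⟨⟨(hψs hp).1, le_of_bQ_ne hδ h9⟩, mem_ball_iff_norm.2 h10⟩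
        simp only [indicator_of_mem h13] at h12
        have h14 : 1 ≤ Real.exp (2 * y) * (Real.exp 8 / rQ Q ^ 2) := by
          rw [rQ, ← Real.exp_nat_mul, ← Real.exp_sub, ← Real.exp_add]
          exact Real.one_le_exp (by push_cast; linarith only [h8])
        have h15 := mul_le_mul_of_nonneg_left h12 (Real.exp_pos (2 * y)).le
        have h16 : c / 2 * γ₀ p.1 p.2 y ≤ 1 := by nlinarith only [(h2 y).1, (h2 y).2, hc, hc1]
        simp only [hq, mul_add]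
        linarith only [h11, h14, h15, h16]
      have h7 := mul_le_mul_of_nonneg_left h6 (gw_nonneg (c := c) (a := a) (b := ys) (y := y))
      have h8 := mul_le_of_le_one_left h4 (gw_le_one (y := y) hc.le hya)
      linarith only [h3, h7, h8]⟩
  have i4 : Integrable (fun p : ℝ × E3 => ψ p.1 p.2 * q p) (stm w I) := by
    obtain ⟨M, hM⟩ := hψ.continuous.bounded_above_of_compact_support hψc
    refine IntegrableOn.integrable_of_forall_notMem_eq_zero (s := K) ?_ fun p hp => by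
      rw [hψz p hp, zero_mul]
    refine Measure.integrableOn_of_bounded
      (M := M * (∑ Q ∈ F, Cw / rQ Q ^ 2 + ∑ Q ∈ F₂, Real.exp 8 / rQ Q ^ 2))
      (hC.stm_fin w I Z A hw K hψc hKI).ne
      (hψ.continuous.measurable.mul hqm).aestronglyMeasurable (Eventually.of_forall fun p => ?_)
    rw [norm_mul, Real.norm_of_nonneg (hq0 p)]
    exact mul_le_mul (hM p) (hqB p) (hq0 p) ((norm_nonneg _).trans (hM p))
  refine ⟨F, F₂, _, fun p => GG w I A σ θ (fun t x y => h y * γ t x y) p.1 p.2,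
    fun Q hQ => ⟨((hmF Q).1 hQ).2.2, hr Q hQ⟩, fun Q hQ => Finset.mem_filter.1 hQ,
    (i1.add (i2.add (i4.const_mul Cc))).congr (Eventually.of_forall fun p => ?_), i3,
    fun p hp => ?_, fun p hp h0 => ⟨?_, ?_, fun h => ?_, fun h1 h2 => ?_, ?_⟩⟩
  · simp only [Pi.add_apply]
    ring
  · have h1 := P218UV.adj_eq_zero (w := w) hp
    simp only at h1
    simp only [show adj w ψ p.1 p.2 = 0 from h1,
      hψz p hp, mul_zero, zero_mul, add_zero]
  · exact integral_nonneg fun y => mul_nonneg (hh y).1 (hγ0 _ (hψs hp).1 _ y)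
  · refine int_le_of_lint (by positivity) (le_trans ?_ (lintegral_gw hc hya hh))
    refine (setLIntegral_le_lintegral _ _).trans (lintegral_mono fun y => ?_)
    exact ENNReal.ofReal_le_ofReal (mul_le_mul_of_nonneg_left (hγ2 _ (hψs hp).1 _ y) (hh y).1)
  · refine setIntegral_eq_zero_of_forall_eq_zero fun y hy => ?_
    have h3 : a ≤ y := by
      by_contra h3
      exact h y (not_le.1 h3).le hy
    simp only [hγ1 _ _ _ h3, mul_zero]
  · have h3 : Integrable fun y => h y * γ p.1 p.2 y := by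
      refine (hhc.mul (contDiff_gw.continuous.mul (continuous_iff_continuousAt.2 fun y =>
        (cd_y (hγa _ (hψs hp).1 p.2 y)).continuousAt))).integrable_of_hasCompactSupport
        (HasCompactSupport.intro (isCompact_Icc (a := y₀) (b := a)) fun y hy => ?_)
      rw [mem_Icc, not_and_or, not_le, not_le] at hy
      rcases hy with hy | hy
      · simp only [Pi.mul_apply, hh0 y hy.le, zero_mul]
      · simp only [Pi.mul_apply, gw_zero hy.le, zero_mul, mul_zero]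
    have h4 : Icc (a - 2) (a - 1) ⊆ Om w I A σ θ p.1 p.2 := fun y hy =>
      Om_up (y := a - 2) (Or.inl h1) hy.1
    have h5 := setIntegral_ge_of_const_le_real (μ := volume) (c := Real.exp (-2))
      (f := fun y => h y * γ p.1 p.2 y) measurableSet_Icc (by simp)
      (fun y (hy : y ∈ Icc (a - 2) (a - 1)) => by
        have h6 : γ₀ p.1 p.2 y = 1 := (hγ' _ (hψs hp).1 p.2).2.2.1 y fun Q hQ _ => by
          by_contra h7
          rw [not_or, not_le] at h7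
          exact h2 Q hQ ⟨⟨(hψs hp).1, le_of_bQ_ne hδ h7.1⟩, mem_ball_iff_norm.2 h7.2⟩
        simp only [hγd, h6, mul_one, hh1 y (hys.trans hy.1), one_mul]
        exact gw_ge hc.le hc1 hys hy) h3.integrableOn
    rw [Real.volume_real_Icc_of_le (by linarith), show a - 1 - (a - 2) = 1 by ring, mul_one] at h5
    exact h5.trans (setIntegral_mono_set h3.integrableOn
      (Eventually.of_forall fun y => mul_nonneg (hh y).1 (hγ0 _ (hψs hp).1 _ y))
      (LE.le.eventuallyLE h4))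
  · refine add_le_add le_rfl (mul_le_mul_of_nonneg_left ?_ (hψ0 _ _))
    have hn : ‖gradient (w p.1) p.2‖ = 1 := (hw.eik p.1 (hKI hp).1 p.2 h0).self_of_nhds
    have hCw : 0 ≤ Cw := (he0 0).1.trans (he0 0).2
    have h1 : ∫ y in Om w I A σ θ p.1 p.2, h y * heat w (fun t x => γ t x y) p.1 p.2
        ≤ ∑ Q ∈ F with p ∈ cellQ w δ Λ J Q,
          (e ((rQ Q)⁻¹ • (p.2 - zQ Q)) / rQ Q ^ 2 + Cw * |deriv (bQ w δ Q) p.1|) := by
      refine int_le_of_lint (Finset.sum_nonneg fun Q _ =>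
        add_nonneg (heQ Q p.2) (by positivity)) (le_trans ?_ ((hG p hp).2.1 _ hn))
      rw [← lintegral_indicator measurableSet_Iic]
      refine (setLIntegral_le_lintegral _ _).trans (lintegral_mono fun y => ?_)
      have h2 := cd_tx (hγa _ (hψs hp).1 p.2 y)
      have h3 : heat w (fun t x => γ t x y) p.1 p.2 = gw c a ys y *
          (deriv (fun s => γ₀ s p.2 y) p.1
            - trT (gradient (w p.1) p.2) (hs (fun x => γ₀ p.1 x y) p.2)) := by
        simp only [heat, hγd]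
        rw [trT_const_mul _ (slice_x (f := fun s z => γ₀ s z y) h2), deriv_const_mul_field]
        ring
      simp only [h3]
      by_cases hy : y ∈ Iic a
      · rw [indicator_of_mem hy, ← mul_assoc, ENNReal.ofReal_mul (mul_nonneg (hh y).1 gw_nonneg)]
        exact mul_le_of_le_one_left' (ENNReal.ofReal_le_one.2
          (mul_le_one₀ (hh y).2.1 gw_nonneg (gw_le_one hc.le hya)))
      · simp [gw_zero (not_le.1 hy).le]
    simp only [hq, mul_add]
    rw [← add_assoc]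
    refine add_le_add ?_ le_rfl
    rw [← hqe, ← hsum, Finset.mul_sum]
    refine (add_le_add h1 le_rfl).trans ?_
    rw [← Finset.sum_add_distrib]
    refine Finset.sum_le_sum fun Q hQ => ?_
    have h2 := mul_le_mul_of_nonneg_left
      (abs_deriv_bQ hδ (hsm Q (Finset.mem_filter.1 hQ).1 _ (hψs hp).1)) hCw
    simp only [eQ]
    linarith

end Vale.Agent.P218WE
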