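import Vale.Agent.P218WE.Loss
import Vale.Agent.P218WE.WCore
import Vale.Agent.P218UD.RegS

/-! The strong maximum principle for the truncated separation functional: the contradiction for
one weak flow. -/

open MeasureTheory Set Filter Topology Metric
open scoped ENNReal NNReal RealInnerProductSpace ContDiff

namespace Vale.Agent.P218WE

open Vale.Agent.P218UA Vale.Agent.P218UM Vale.Agent.P218UD Vale.Agent.P218WA

lemma exists_small' {X : ℝ} (hX : 0 ≤ X) {b : ℝ} (hb : 0 < b) :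
    ∃ η, 0 < η ∧ η ≤ b ∧ X * η ≤ 1 / 1000 := by
  refine ⟨min b (1 / 1000 / (X + 1)), by positivity, min_le_left _ _, ?_⟩
  refine (mul_le_mul_of_nonneg_left (min_le_right _ _) hX).trans ?_
  rw [← mul_div_assoc, div_le_iff₀ (by positivity)]
  linarith

lemma fin_contra {g r x₁ x₂ x₃ x₄ x₅ ε₂ ε₃ : ℝ} {N : ℝ≥0} (hr : 0 < r) (h₁ : 0 ≤ x₁) (h₂ : 0 ≤ x₂)
    (h₃ : 0 ≤ x₃) (h₄ : 0 ≤ x₄) (h₅ : 0 ≤ x₅) (hε₂ : 0 ≤ ε₂) (hε₃ : 0 ≤ ε₃) (hg : g = 1 / 32)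
    (n₁ : x₁ ≤ 1 / 1000) (n₂ : x₂ ≤ 1 / 1000) (n₃ : x₃ * N ≤ 2 / 1000) (n₄ : x₄ * ε₂ ≤ 1 / 1000)
    (n₅ : x₅ * ε₃ ≤ 1 / 1000)
    (h : ENNReal.ofReal g * ENNReal.ofReal (r / 3) ≤ ENNReal.ofReal x₁ * ENNReal.ofReal r
      + ENNReal.ofReal x₂ * ENNReal.ofReal r + (ENNReal.ofReal x₃ * (N * ENNReal.ofReal r)
        + ENNReal.ofReal x₄ * ENNReal.ofReal (ε₂ * r)) + ENNReal.ofReal x₅ * ENNReal.ofReal (ε₃ * r)
      + ENNReal.ofReal (1 / 1000 * r)) : False := by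
  rw [hg, ← ENNReal.ofReal_coe_nnreal, ← ENNReal.ofReal_mul (by positivity),
    ← ENNReal.ofReal_mul (by positivity), ← ENNReal.ofReal_mul (by positivity),
    ← ENNReal.ofReal_mul (by positivity), ← ENNReal.ofReal_mul (by positivity),
    ← ENNReal.ofReal_mul (by positivity), ← ENNReal.ofReal_mul (by positivity),
    ← ENNReal.ofReal_add (by positivity) (by positivity),
    ← ENNReal.ofReal_add (by positivity) (by positivity),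
    ← ENNReal.ofReal_add (by positivity) (by positivity),
    ← ENNReal.ofReal_add (by positivity) (by positivity),
    ← ENNReal.ofReal_add (by positivity) (by positivity),
    ENNReal.ofReal_le_ofReal_iff (by positivity)] at h
  linarith only [h, hr, mul_le_mul_of_nonneg_right n₁ hr.le, mul_le_mul_of_nonneg_right n₂ hr.le,
    mul_le_mul_of_nonneg_right n₃ hr.le, mul_le_mul_of_nonneg_right n₄ hr.le,
    mul_le_mul_of_nonneg_right n₅ hr.le]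

lemma lint_split {α ι : Type*} [MeasurableSpace α] {μ : Measure α} {l1 l2 : α → ℝ}
    {l3 l4 : ι → α → ℝ} {F F₂ : Finset ι} (m1 : Measurable l1) (m2 : Measurable l2)
    (m3 : ∀ Q ∈ F, Measurable (l3 Q)) (m5 : ∀ Q ∈ F₂, Measurable (l4 Q)) (p1 : ∀ p, 0 ≤ l1 p)
    (p2 : ∀ p, 0 ≤ l2 p) (p3 : ∀ Q p, 0 ≤ l3 Q p) (p5 : ∀ Q p, 0 ≤ l4 Q p) :
    ∫⁻ p, ENNReal.ofReal (l1 p + l2 p + ∑ Q ∈ F, l3 Q p + ∑ Q ∈ F₂, l4 Q p) ∂μ
      = ∫⁻ p, ENNReal.ofReal (l1 p) ∂μ + ∫⁻ p, ENNReal.ofReal (l2 p) ∂μ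
        + ∑ Q ∈ F, ∫⁻ p, ENNReal.ofReal (l3 Q p) ∂μ
        + ∑ Q ∈ F₂, ∫⁻ p, ENNReal.ofReal (l4 Q p) ∂μ := by
  have p4 : ∀ p, 0 ≤ ∑ Q ∈ F, l3 Q p := fun p => Finset.sum_nonneg fun Q _ => p3 Q p
  have p6 : ∀ p, 0 ≤ ∑ Q ∈ F₂, l4 Q p := fun p => Finset.sum_nonneg fun Q _ => p5 Q p
  have m4 : Measurable fun p => ENNReal.ofReal (l1 p) + ENNReal.ofReal (l2 p) :=
    m1.ennreal_ofReal.add m2.ennreal_ofReal
  have m6 : Measurable fun p => ENNReal.ofReal (l1 p) + ENNReal.ofReal (l2 p)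
      + ∑ Q ∈ F, ENNReal.ofReal (l3 Q p) :=
    m4.add (Finset.measurable_sum F fun Q hQ => (m3 Q hQ).ennreal_ofReal)
  rw [← lintegral_finsetSum F fun Q hQ => (m3 Q hQ).ennreal_ofReal,
    ← lintegral_finsetSum F₂ fun Q hQ => (m5 Q hQ).ennreal_ofReal,
    ← lintegral_add_left m1.ennreal_ofReal, ← lintegral_add_left m4, ← lintegral_add_left m6]
  refine lintegral_congr fun p => ?_
  rw [ENNReal.ofReal_add (add_nonneg (add_nonneg (p1 p) (p2 p)) (p4 p)) (p6 p),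
    ENNReal.ofReal_add (add_nonneg (p1 p) (p2 p)) (p4 p), ENNReal.ofReal_add (p1 p) (p2 p),
    ENNReal.ofReal_sum_of_nonneg fun Q _ => p3 Q p,
    ENNReal.ofReal_sum_of_nonneg fun Q _ => p5 Q p]

theorem one_flow (hC : CalcW) (hcell : CellW) {w : ℝ → E3 → ℝ} {I Z : Set ℝ}
    {A θ σ δ c Cc Λ Cw a ρ ε K r₀ r₁ M ε₁ ε₂ ρ' : ℝ} {N : ℝ≥0} {e : E3 → ℝ} {z : E3}
    {ψ : ℝ → E3 → ℝ} {B : Set (ℝ × E3)} (hw : IsW0 w I Z A)
    (hcore : HasCompactSupport (fun p : ℝ × E3 => ψ p.1 p.2) →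
      tsupport (fun p : ℝ × E3 => ψ p.1 p.2) ⊆ I ×ˢ univ → ∀ η > 0,
      ∃ y₂ : ℝ, ∀ ys ≤ y₂, ∃ y₀ < ys, ∃ h : ℝ → ℝ, CoreAtW A θ σ δ c Cc w I ψ η ys y₀ h)
    (hδ : 0 < δ) (hc : 0 < c) (hc1 : c ≤ 1) (hCc : 0 ≤ Cc)
    (hθ : θ ≤ 1 / 10) (hΛ : 1 ≤ Λ) (hε : 0 ≤ ε) (he : Measurable e)
    (he0 : ∀ x, 0 ≤ e x ∧ e x ≤ Cw)
    (he1 : ∀ (μ : Measure E3) (A : ℝ), 0 ≤ A → AR μ A → ∀ (z : E3) (r : ℝ), 0 < r →
      ∫⁻ x, ENNReal.ofReal (e (r⁻¹ • (x - z)) / r ^ 2) ∂μ ≤ ENNReal.ofReal (ε * A))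
    (hwt : WtAt (c / 2) Λ Cw e) (hρ : 0 < ρ) (hρ1 : ρ ≤ 1 / 2) (hρz : ρ * ‖z‖ ≤ 1 / 2)
    (hI : Icc (-2 : ℝ) (-1) ⊆ I) (ha : Real.exp (a + 4) ≤ ρ) (har : Real.exp (a - 2) = 2 * r₁)
    (hr₀ : 0 < r₀) (hr₀ρ : r₀ ≤ ρ / 4) (hK : 1 ≤ K)
    (hψ : ContDiff ℝ 2 fun p : ℝ × E3 => ψ p.1 p.2)
    (hψs : tsupport (fun p : ℝ × E3 => ψ p.1 p.2) ⊆ {p | p.1 ∈ Icc (-1 - ρ ^ 2 / 2 - 2 * (ρ ^ 2 / 6))
      (-1 - ρ ^ 2 / 2 + 2 * (ρ ^ 2 / 6)) ∧ ‖p.2 - ctr z p.1‖ ≤ r₀})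
    (hψ0 : ∀ t x, 0 ≤ ψ t x)
    (hψ1 : ∀ t ∈ Icc (-1 - ρ ^ 2 / 2 - ρ ^ 2 / 6) (-1 - ρ ^ 2 / 2 + ρ ^ 2 / 6), ∀ x,
      ‖x - ctr z t‖ ≤ r₁ → ψ t x ≠ 0)
    (hadj : ∀ (t : ℝ) (x : E3), t ≤ -1 → ‖gradient (w t) x‖ = 1 →
      adj w ψ t x ≤ K / √(‖x - ctr z t‖ ^ 2 + r₁ ^ 2) + K / r₀ ^ 2
        - (tube z (Icc (-1 - ρ ^ 2 / 2 - ρ ^ 2 / 6) (-1 - ρ ^ 2 / 2 + ρ ^ 2 / 6)) r₁).indicator
          (fun _ => 1 / r₁ ^ 2) (t, x))
    (hM : ∀ t x, ψ t x ≤ M) (hB : MeasurableSet B)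
    (hgood : ∀ t ∈ Icc (-2 : ℝ) (-1), (∀ x : E3, ‖x‖ ≤ ‖z‖ + 1 → (t, x) ∉ B → ∀ y ≤ a,
      y ∉ Om w I A σ θ t x) ∧ ar (w t) {x | (t, x) ∈ B} ≤ ENNReal.ofReal ε₁)
    (hmass : ∀ t ∈ Icc (-2 : ℝ) (-1), t ∉ Z → ENNReal.ofReal (r₁ ^ 2 / 4)
      ≤ ar (w t) (closedBall (√(-t) • z) r₁) ∧ ¬Reg (w t) (1 / 10) (√(-t) • z) r₁)
    (hquiet : ∀ t ∈ Icc (-3 / 2 : ℝ) (-1), ∀ z' : E3, ‖z'‖ ≤ ‖z‖ + 1 →
      ∀ r ∈ Icc ρ' (Real.exp (a + 4)), bbar w z' r t ≤ δ / 4)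
    (hcount : ∀ F : Finset P218UD.Lat, (∀ Q ∈ F, zQ Q ∈ ball z (2 * ρ) ∧ rQ Q ≤ ρ') →
      ∑ Q ∈ F, volume {t ∈ Icc (-1 - ρ ^ 2) (-1) | δ / 2 ≤ bbar w (zQ Q) (rQ Q) t}
        ≤ N * ENNReal.ofReal (ρ ^ 2))
    (hsmall : ∀ F : Finset P218UD.Lat, (∀ Q ∈ F, zQ Q ∈ ball z (2 * ρ) ∧ rQ Q ≤ ρ') →
      ∑ Q ∈ F, ∫⁻ t in {t ∈ Icc (-1 - ρ ^ 2) (-1) | δ / 2 ≤ bbar w (zQ Q) (rQ Q) t},
        ENNReal.ofReal (rQ Q ^ 2 * |deriv (bbar w (zQ Q) (rQ Q)) t|) ≤ ENNReal.ofReal (ε₂ * ρ ^ 2))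
    (htail : ∀ ε₃ > 0, ∃ y : ℝ, ∀ F : Finset P218UD.Lat,
      (∀ Q ∈ F, zQ Q ∈ ball z (2 * ρ) ∧ (Q.1 : ℝ) ≤ y) →
      ∑ Q ∈ F, volume {t ∈ Icc (-1 - ρ ^ 2) (-1) | δ / 2 ≤ bbar w (zQ Q) (rQ Q) t}
        ≤ ENNReal.ofReal ε₃)
    (hε₁ : 0 ≤ ε₁) (hε₂ : 0 ≤ ε₂)
    (n1 : 4 * ((2 / c + 63) * K) * A * r₀ ≤ 1 / 1000)
    (n2 : (2 / c + 63) * (K / r₀ ^ 2) * ε₁ ≤ 1 / 1000)
    (n3 : M * (1 + Cc) * (ε * A) * N ≤ 1 / 1000)
    (n4 : M * (Cw * (CXi / δ)) * (A * Λ ^ 2) * ε₂ ≤ 1 / 1000)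
    (n5 : 1 / r₁ ^ 2 * (A * (Λ * ρ') ^ 2) * N ≤ 1 / 1000) : False := by
  classical
  have hr₁ : 0 < r₁ := by linarith only [Real.exp_pos (a - 2), har]
  have hA : 0 ≤ A := zero_le_one.trans hw.one_le
  have hM0 : 0 ≤ M := (hψ0 0 0).trans (hM 0 0)
  have hCw : 0 ≤ Cw := (he0 0).1.trans (he0 0).2
  have hX := CXi_pos
  have hρ2 : ρ ^ 2 ≤ 1 / 4 := by nlinarith only [hρ, hρ1]
  have hρ3 : 0 < ρ ^ 2 := by positivity
  set J : Set ℝ := Ioo (-1 - ρ ^ 2) (-1) with hJ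
  set T : Set ℝ := Icc (-1 - ρ ^ 2 / 2 - ρ ^ 2 / 6) (-1 - ρ ^ 2 / 2 + ρ ^ 2 / 6) with hT
  have hJ2 : J ⊆ Icc (-3 / 2) (-1) := fun t ht => ⟨by linarith only [ht.1, hρ2], ht.2.le⟩
  have hJ3 : J ⊆ Icc (-2) (-1) := fun t ht => ⟨by linarith only [ht.1, hρ2], ht.2.le⟩
  have hTJ : T ⊆ J := fun t ht => ⟨by linarith only [ht.1, hρ3], by linarith only [ht.2, hρ3]⟩
  set S := tsupport fun p : ℝ × E3 => ψ p.1 p.2 with hS
  have hSJ : S ⊆ J ×ˢ ball z ρ := fun p hp => by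
    have h1 : p.1 ∈ J :=
      ⟨by linarith only [(hψs hp).1.1, hρ3], by linarith only [(hψs hp).1.2, hρ3]⟩
    have h2 := norm_ctr_sub z h1.2.le
    have h3 := norm_add_le (p.2 - ctr z p.1) (ctr z p.1 - z)
    have h4 : (-1 - p.1) * ‖z‖ ≤ ρ ^ 2 * ‖z‖ :=
      mul_le_mul_of_nonneg_right (by linarith only [h1.1]) (norm_nonneg _)
    rw [sub_add_sub_cancel] at h3
    exact ⟨h1, mem_ball_iff_norm.2 (by
      linarith only [(hψs hp).2, h2, h3, h4, hr₀ρ, hρ, mul_le_mul_of_nonneg_left hρz hρ.le])⟩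
  have hψc : HasCompactSupport fun p : ℝ × E3 => ψ p.1 p.2 :=
    ((isCompact_Icc (a := -2) (b := -1)).prod (isCompact_closedBall z ρ)).of_isClosed_subset
      (isClosed_tsupport _) fun p hp => ⟨hJ3 (hSJ hp).1, ball_subset_closedBall (hSJ hp).2⟩
  have hJI : ∀ t ∈ J, Icc (t - ρ ^ 2) t ⊆ I := fun t ht u hu =>
    hI ⟨by linarith only [ht.1, hu.1, hρ2], hu.2.trans ht.2.le⟩
  obtain ⟨ε₃, hε₃, -, n6⟩ := exists_small' (X := M * Cc * Real.exp 8 * (A * Λ ^ 2))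
    (by positivity) one_pos
  obtain ⟨y₃, htail⟩ := htail (ε₃ * ρ ^ 2) (by positivity)
  obtain ⟨y₂, hcore⟩ := hcore hψc (fun p hp => ⟨hI (hJ3 (hSJ hp).1), trivial⟩)
    (1 / 1000 * ρ ^ 2) (by positivity)
  obtain ⟨y₀, -, h, hcore⟩ := hcore (min y₂ (min (a - 2) (y₃ - 4))) (min_le_left _ _)
  obtain ⟨F₀, F₂, f, G, hF₀, hF₂, hf, hf0, hfz, hG⟩ := wcore (J := J) hC hcell hw hcore
    ((min_le_right _ _).trans (min_le_left _ _)) hδ hc hc1 he he0 hwt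
    isOpen_Ioo hJI ha hψ hψc hSJ hψ0
  set F := F₀.filter fun Q => rQ Q ≤ ρ' with hF
  have hFm : ∀ Q ∈ F, zQ Q ∈ ball z (2 * ρ) ∧ rQ Q ≤ ρ' := fun Q hQ =>
    ⟨(hF₀ Q (Finset.mem_filter.1 hQ).1).1, (Finset.mem_filter.1 hQ).2⟩
  have hFm₂ : ∀ Q ∈ F₂, zQ Q ∈ ball z (2 * ρ) ∧ (Q.1 : ℝ) ≤ y₃ := fun Q hQ =>
    ⟨(hF₀ Q (hF₂ Q hQ).1).1, by
      linarith only [(hF₂ Q hQ).2, min_le_right y₂ (min (a - 2) (y₃ - 4)),
        min_le_right (a - 2) (y₃ - 4)]⟩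
  have hFq : ∀ Q ∈ F₀, ∀ p ∈ cellQ w δ Λ J Q, Q ∈ F := fun Q hQ p hp => by
    by_contra h1
    have h2 : ¬rQ Q ≤ ρ' := fun h => h1 (Finset.mem_filter.2 ⟨hQ, h⟩)
    have h3 := norm_add_le z (zQ Q - z)
    rw [add_sub_cancel] at h3
    have h4 := hquiet p.1 (hJ2 hp.1.1) (zQ Q)
      (by linarith only [mem_ball_iff_norm.1 (hF₀ Q hQ).1, h3, hρ1]) _ ⟨(not_le.1 h2).le, (hF₀ Q hQ).2⟩
    linarith only [hp.1.2, h4, hδ]
  have hlm : ∀ Q ∈ F₀, MeasurableSet (loud w (δ / 2) J Q) := fun Q hQ =>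
    measurableSet_loud isOpen_Ioo fun t ht => hcell.smooth w I Z A hw _ _ t (rQ_pos Q)
      ((Icc_subset_Icc_left (by
        have := pow_le_pow_left₀ (rQ_pos Q).le ((hF₀ Q hQ).2.trans ha) 2
        linarith only [this])).trans (hJI t ht))
  have heQ : ∀ Q x, 0 ≤ eQ e Q x := fun Q x => div_nonneg (he0 _).1 (sq_nonneg _)
  set l1 : ℝ × E3 → ℝ := (tube z J r₀).indicator
    fun p => (2 / c + 63) * K / √(‖p.2 - ctr z p.1‖ ^ 2 + r₁ ^ 2) with hl1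
  set l2 : ℝ × E3 → ℝ := (B ∩ J ×ˢ univ).indicator fun _ => (2 / c + 63) * (K / r₀ ^ 2) with hl2
  set l3 : P218UD.Lat → ℝ × E3 → ℝ := fun Q => (cellQ w δ Λ J Q).indicator fun p =>
    M * (1 + Cc) * eQ e Q p.2 + M * (Cw * (CXi / δ)) * |deriv (bbar w (zQ Q) (rQ Q)) p.1|
      + 1 / r₁ ^ 2 with hl3
  set l4 : P218UD.Lat → ℝ × E3 → ℝ := fun Q => (cellQ w δ Λ J Q).indicator fun _ =>
    M * Cc * Real.exp 8 / rQ Q ^ 2 with hl4
  have p1 : ∀ p, 0 ≤ l1 p := fun p => indicator_nonneg (fun _ _ => by positivity) p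
  have p2 : ∀ p, 0 ≤ l2 p := fun p => indicator_nonneg (fun _ _ => by positivity) p
  have p3 : ∀ Q p, 0 ≤ l3 Q p := fun Q p => indicator_nonneg (fun p _ => by
    have := heQ Q p.2
    positivity) p
  have p4 : ∀ p, 0 ≤ ∑ Q ∈ F, l3 Q p := fun p => Finset.sum_nonneg fun Q _ => p3 Q p
  have p5 : ∀ Q p, 0 ≤ l4 Q p := fun Q p => indicator_nonneg (fun p _ => by positivity) p
  have p6 : ∀ p, 0 ≤ ∑ Q ∈ F₂, l4 Q p := fun p => Finset.sum_nonneg fun Q _ => p5 Q p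
  have key := lint_le_of_int' (g := (tube z T r₁).indicator fun _ => 1 / 8 * (1 / r₁ ^ 2))
    (l := fun p => l1 p + l2 p + ∑ Q ∈ F, l3 Q p + ∑ Q ∈ F₂, l4 Q p) (by positivity) hf hf0 <| by
    filter_upwards [hC.stm_ae w I Z A hw] with p hp
    refine ⟨indicator_nonneg (fun _ _ => by positivity) p,
      add_nonneg (add_nonneg (add_nonneg (p1 p) (p2 p)) (p4 p)) (p6 p), ?_⟩
    by_cases hpS : p ∈ S
    swap
    · rw [hfz p hpS, indicator_of_notMem fun h => hpS (subset_tsupport _ (hψ1 _ h.1 _ h.2))]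
      linarith only [p1 p, p2 p, p4 p, p6 p]
    obtain ⟨g0, g1, g2, g3, g4⟩ := hG p hpS hp.2
    have hpJ := (hSJ hpS).1
    have h1 := mul_le_mul_of_nonneg_left
      (hadj p.1 p.2 hpJ.2.le (hw.eik p.1 hp.1.1 p.2 hp.2).self_of_nhds) g0
    have h2 : G p * (K / √(‖p.2 - ctr z p.1‖ ^ 2 + r₁ ^ 2)) ≤ l1 p := by
      rw [hl1, indicator_of_mem (show p ∈ tube z J r₀ from ⟨hpJ, (hψs hpS).2⟩), mul_div_assoc]
      exact mul_le_mul_of_nonneg_right g1 (by positivity)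
    have h3 : G p * (K / r₀ ^ 2) ≤ l2 p := by
      by_cases hpB : p ∈ B
      · rw [hl2, indicator_of_mem (show p ∈ B ∩ J ×ˢ univ from ⟨hpB, hpJ, trivial⟩)]
        exact mul_le_mul_of_nonneg_right g1 (by positivity)
      · have h4 := norm_add_le z (p.2 - z)
        rw [add_sub_cancel] at h4
        rw [g2 ((hgood p.1 (hJ3 hpJ)).1 p.2
          (by linarith only [mem_ball_iff_norm.1 (hSJ hpS).2, h4, hρ1]) hpB), zero_mul]
        exact p2 p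
    set n : ℝ := ∑ Q ∈ F, (cellQ w δ Λ J Q).indicator (fun _ => 1 / r₁ ^ 2) p with hn
    have n0 : 0 ≤ n := Finset.sum_nonneg fun Q _ => indicator_nonneg (fun _ _ => by positivity) p
    have h4 : ψ p.1 p.2 * ∑ Q ∈ F₀, (cellQ w δ Λ J Q).indicator (fun p => (1 + Cc) * eQ e Q p.2
        + Cw * (CXi / δ) * |deriv (bbar w (zQ Q) (rQ Q)) p.1|) p + n ≤ ∑ Q ∈ F, l3 Q p := by
      rw [← Finset.sum_subset (Finset.filter_subset (fun Q => rQ Q ≤ ρ') F₀) fun Q h5 h6 =>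
        indicator_of_notMem (fun h7 => h6 (hFq Q h5 p h7)) _, Finset.mul_sum, hn,
        ← Finset.sum_add_distrib]
      refine Finset.sum_le_sum fun Q _ => ?_
      by_cases h5 : p ∈ cellQ w δ Λ J Q
      · simp only [hl3, indicator_of_mem h5]
        have h6 : 0 ≤ (1 + Cc) * eQ e Q p.2
            + Cw * (CXi / δ) * |deriv (bbar w (zQ Q) (rQ Q)) p.1| := by
          have := heQ Q p.2
          positivity
        linarith only [mul_le_mul_of_nonneg_right (hM p.1 p.2) h6]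
      · simp only [hl3, indicator_of_notMem h5, mul_zero, add_zero, le_refl]
    have h4' : ψ p.1 p.2 * (Cc * ∑ Q ∈ F₂, (cellQ w δ Λ J Q).indicator
        (fun _ => Real.exp 8 / rQ Q ^ 2) p) ≤ ∑ Q ∈ F₂, l4 Q p := by
      rw [Finset.mul_sum, Finset.mul_sum]
      refine Finset.sum_le_sum fun Q _ => ?_
      by_cases h5 : p ∈ cellQ w δ Λ J Q
      · simp only [hl4, indicator_of_mem h5]
        rw [mul_div_assoc, mul_assoc]
        exact mul_le_mul_of_nonneg_right (hM p.1 p.2) (by positivity)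
      · simp only [hl4, indicator_of_notMem h5, mul_zero, le_refl]
    have h5 : (tube z T r₁).indicator (fun _ => 1 / 8 * (1 / r₁ ^ 2)) p
        ≤ G p * (tube z T r₁).indicator (fun _ => 1 / r₁ ^ 2) p + n := by
      by_cases h6 : p ∈ tube z T r₁
      swap
      · rw [indicator_of_notMem h6, indicator_of_notMem h6, mul_zero, zero_add]
        exact n0
      rw [indicator_of_mem h6, indicator_of_mem h6]
      have h7 : 0 < 1 / r₁ ^ 2 := by positivity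
      by_cases h8 : ∃ Q ∈ F₀, p ∈ cellQ w δ Λ J Q
      · obtain ⟨Q, h9, h10⟩ := h8
        have h11 := Finset.single_le_sum (s := F)
          (f := fun Q => (cellQ w δ Λ J Q).indicator (fun _ => 1 / r₁ ^ 2) p)
          (fun Q _ => indicator_nonneg (fun _ _ => h7.le) p) (hFq Q h9 p h10)
        simp only [indicator_of_mem h10] at h11
        linarith only [mul_nonneg g0 h7.le, h11, hn, h7]
      · push Not at h8
        have h9 := g3 (fun h => (hmass p.1 (hJ3 hpJ) hp.1.2).2 (reg_subset (reg_mono_angle h hθ)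
          (ball_subset_ball' (by
            have h10 : ‖p.2 - √(-p.1) • z‖ ≤ r₁ := h6.2
            rw [dist_comm, dist_eq_norm]
            linarith only [h10, har])))) h8
        have h10 : 1 / 8 ≤ G p := by
          rw [show (-2 : ℝ) = -1 + -1 by norm_num, Real.exp_add] at h9
          nlinarith only [Real.exp_neg_one_gt_d9, h9]
        linarith only [mul_le_mul_of_nonneg_right h10 h7.le, n0]
    rw [mul_sub, mul_add] at h1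
    rw [mul_add] at g4
    linarith only [h1, h2, h3, h4, h4', h5, g4]
  have hvJ : volume J = ENNReal.ofReal (ρ ^ 2) := by
    rw [hJ, Real.volume_Ioo]
    congr 1
    ring
  have hvT : volume T = ENNReal.ofReal (ρ ^ 2 / 3) := by
    rw [hT, Real.volume_Icc]
    congr 1
    ring
  have hlow := gain_ge hC hw z measurableSet_Icc ((hTJ.trans hJ3).trans hI)
    (b := 1 / 8 * (1 / r₁ ^ 2)) (by positivity) fun t ht hZ => (hmass t (hJ3 (hTJ ht)) hZ).1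
  have m1 : Measurable l1 := measurable_l1 z measurableSet_Ioo _ _ _
  have m2 : Measurable l2 := measurable_const.indicator (hB.inter (measurableSet_Ioo.prod .univ))
  have m3 : ∀ Q ∈ F, Measurable (l3 Q) := fun Q hQ => by
    have hem : Measurable (eQ e Q) := (he.comp (by fun_prop)).div_const _
    exact Measurable.indicator ((((hem.comp measurable_snd).const_mul _).add
      ((((measurable_deriv _).comp measurable_fst).abs).const_mul _)).add_const _)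
      ((hlm Q (Finset.mem_filter.1 hQ).1).prod measurableSet_ball)
  have m5 : ∀ Q ∈ F₂, Measurable (l4 Q) := fun Q hQ =>
    measurable_const.indicator ((hlm Q (hF₂ Q hQ).1).prod measurableSet_ball)
  have hsplit := lint_split (μ := stm w I) m1 m2 m3 m5 p1 p2 p3 p5
  have b1 := loss1 hC hw z (J := J) measurableSet_Ioo hr₀ hr₁ (M := (2 / c + 63) * K)
    (by positivity)
  have b2 := loss2 hC hw (J := J) measurableSet_Ioo hB (b := (2 / c + 63) * (K / r₀ ^ 2))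
    (by positivity) fun t ht => (hgood t (hJ3 ht)).2
  have hsub : ∀ Q, loud w (δ / 2) J Q
      ⊆ {t ∈ Icc (-1 - ρ ^ 2) (-1) | δ / 2 ≤ bbar w (zQ Q) (rQ Q) t} :=
    fun Q t ht => ⟨Ioo_subset_Icc_self ht.1, ht.2⟩
  have b3 : ∑ Q ∈ F, ∫⁻ p, ENNReal.ofReal (l3 Q p) ∂(stm w I)
      ≤ ENNReal.ofReal (M * (1 + Cc) * (ε * A) + 1 / r₁ ^ 2 * (A * (Λ * ρ') ^ 2))
          * (N * ENNReal.ofReal (ρ ^ 2))
        + ENNReal.ofReal (M * (Cw * (CXi / δ)) * (A * Λ ^ 2)) * ENNReal.ofReal (ε₂ * ρ ^ 2) := by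
    refine (Finset.sum_le_sum fun Q hQ => lossQ hC hw (hlm Q (Finset.mem_filter.1 hQ).1) hΛ hε he
      (fun x => (he0 x).1) he1 (by positivity) (by positivity) (by positivity)
      (hFm Q hQ).2).trans ?_
    rw [Finset.sum_add_distrib, ← Finset.mul_sum, ← Finset.mul_sum]
    exact add_le_add (mul_le_mul_right ((Finset.sum_le_sum fun Q _ =>
      measure_mono (hsub Q)).trans (hcount F hFm)) _) (mul_le_mul_right
        ((Finset.sum_le_sum fun Q _ => lintegral_mono_set (hsub Q)).trans (hsmall F hFm)) _)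
  have b4 : ∑ Q ∈ F₂, ∫⁻ p, ENNReal.ofReal (l4 Q p) ∂(stm w I)
      ≤ ENNReal.ofReal (M * Cc * Real.exp 8 * (A * Λ ^ 2)) * ENNReal.ofReal (ε₃ * ρ ^ 2) := by
    refine (Finset.sum_le_sum fun Q hQ => lossQ2 hC hw (hlm Q (hF₂ Q hQ).1) hΛ
      (by positivity)).trans ?_
    rw [← Finset.mul_sum]
    exact mul_le_mul_right ((Finset.sum_le_sum fun Q _ =>
      measure_mono (hsub Q)).trans (htail F₂ hFm₂)) _
  have fin := hlow.trans (key.trans (add_le_add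
    (hsplit.le.trans (add_le_add (add_le_add (add_le_add b1 b2) b3) b4)) le_rfl))
  rw [hvJ, hvT] at fin
  refine fin_contra hρ3 (by positivity) (by positivity) (by positivity) (by positivity)
    (by positivity) hε₂ hε₃.le ?_ n1 n2 (by linarith only [n3, n5]) n4 n6 fin
  field_simp
  ring

end Vale.Agent.P218WE
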