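import Vale.Agent.P218WA.Props
import Vale.Agent.P218UD.Diss
import Vale.Agent.P218UU.Resc

/-! Statements which hold uniformly in time along a blow-up sequence of a weak flow. -/

open MeasureTheory Set Filter Topology Metric
open scoped ENNReal NNReal RealInnerProductSpace ContDiff

namespace Vale.Agent.P218WE

open Vale.Agent.P218UA Vale.Agent.P218UM Vale.Agent.P218UD Vale.Agent.P218WA
open Vale.Agent.P218 (WeakTendsto)
open Vale.Agent.P218.H63 (lap hessSq)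

/-- uniformity in a parameter from a compact set, under a side condition -/
theorem ev_unif' {X : Type*} [TopologicalSpace X] [FirstCountableTopology X] {K : Set X}
    (hK : IsCompact K) {R P : ℕ → X → Prop}
    (h : ∀ φ : ℕ → ℕ, StrictMono φ → ∀ (t : ℕ → X), (∀ i, t i ∈ K) → (∀ i, R (φ i) (t i)) →
      ∀ t' ∈ K, Tendsto t atTop (𝓝 t') → ∀ᶠ i in atTop, P (φ i) (t i)) :
    ∀ᶠ i in atTop, ∀ t ∈ K, R i t → P i t := by
  by_contra hc
  rw [not_eventually] at hc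
  obtain ⟨φ, hφ, h1⟩ := extraction_of_frequently_atTop hc
  push Not at h1
  choose t ht hR h2 using h1
  obtain ⟨t', ht', ψ, hψ, h3⟩ := hK.tendsto_subseq ht
  obtain ⟨i, hi⟩ := (h (φ ∘ ψ) (hφ.comp hψ) (t ∘ ψ) (fun i => ht _) (fun i => hR _) t' ht'
    h3).exists
  exact h2 _ hi

variable {w : ℝ → E3 → ℝ} {a A C : ℝ} {Z : Set ℝ} {s : ℕ → ℝ} {ν : Measure E3}

lemma tanW_sub (h : TanW w Z s ν) {φ : ℕ → ℕ} (hφ : StrictMono φ) : TanW w Z (s ∘ φ) ν :=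
  ⟨tanSeq_sub h.toTanSeq hφ, fun _ => h.regT _⟩

lemma ev_AR (hC : CalcW) (ha : a < 0) (hw : IsW0 w (Ioo a 0) Z A) (h : TanW w Z s ν) {t : ℕ → ℝ}
    {t' : ℝ} (ht' : t' < 0) (ht : Tendsto t atTop (𝓝 t')) :
    ∀ᶠ i in atTop, AR (ar (resc w (s i) (t i))) A := by
  filter_upwards [ev_left ha h.toTanSeq (t' - 1), ht.eventually (Ioo_mem_nhds (sub_one_lt t') ht')]
    with i h1 h2
  exact (hC.resc0 w a Z A hw _ (h.pos i)).ratio _ ⟨h1.trans h2.1, h2.2⟩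

lemma beta_zero (z : E3) (r L : ℝ) : beta 0 z r L ≤ 0 :=
  beta_le le_rfl ⟨EuclideanSpace.single 0 1, 0, Fin.elim0, by simp, fun φ _ => by simp [pl]⟩

/-- in a fixed range of small scales the rescaled flows are close to parallel planes -/
theorem ev_beta (hC : CalcW) (hT : TangW) (ha : a < 0) (hw : IsW0 w (Ioo a 0) Z A)
    (h : TanW w Z s ν) (hF : Flat ν) (R : ℝ) {δ : ℝ} (hδ : 0 < δ) :
    ∃ r₂ > 0, ∀ r₁ > 0, ∀ᶠ i in atTop, ∀ t ∈ Icc (-2 : ℝ) (-1), ∀ z : E3, ‖z‖ ≤ R →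
      ∀ r ∈ Icc r₁ r₂, beta (ar (resc w (s i) t)) z r 10 ≤ δ := by
  obtain ⟨r₀, hr₀, hF⟩ := hF R 10 (δ / 2) (by positivity)
  refine ⟨r₀ / 2, by positivity, fun r₁ hr₁ => ?_⟩
  have key : ∀ᶠ i in atTop, ∀ t ∈ Icc (-2 : ℝ) (-1), s i ^ 2 * t ∉ Z → ∀ z : E3, ‖z‖ ≤ R →
      ∀ r ∈ Icc r₁ (r₀ / 2), beta (ar (resc w (s i) t)) z r 10 ≤ δ := by
    refine ev_unif' (R := fun i t => s i ^ 2 * t ∉ Z) isCompact_Icc ?_
    intro φ hφ t _ hR t' ht' htt
    have h' := tanW_sub h hφ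
    have h0 : t' < 0 := by linarith [ht'.2]
    have hc := one_le_sqrt ht'.2
    have hc0 : 0 < √(-t') := by linarith
    have hν := hT.ratio w a Z A ha hw _ _ h
    filter_upwards [P218UU.near_lim (ev_AR hC ha hw h' h0 htt) (AR_scal hc0 hν)
      (hT.slow w a Z A ha hw _ _ h' t t' h0 htt (Eventually.of_forall hR)) R r₁ (r₀ / 2) 10 (δ / 2)
      hr₁ (by positivity)] with i hi z hz r hr
    have hr0 : 0 < r := hr₁.trans_le hr.1
    have h1 : ‖(√(-t'))⁻¹ • z‖ ≤ R := by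
      rw [norm_smul, norm_inv, Real.norm_eq_abs, abs_of_pos hc0]
      exact (mul_le_of_le_one_left (norm_nonneg _) (inv_le_one_of_one_le₀ hc)).trans hz
    have h2 := nearPl_scal hc0 (hF _ h1 (r / √(-t')) (by positivity)
      ((div_le_self hr0.le hc).trans_lt (by linarith [hr.2])))
    rw [smul_inv_smul₀ hc0.ne', mul_div_cancel₀ _ hc0.ne'] at h2
    obtain ⟨n, k, b, hn, h2⟩ := h2
    refine beta_le hδ.le ⟨n, k, b, hn, fun f hf => ?_⟩
    have h3 := abs_le.1 (h2 f hf)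
    have h4 := abs_le.1 (hi z hz r hr f hf)
    simp only [Function.comp_apply] at h4
    rw [abs_le]
    constructor <;> linarith [h3.1, h3.2, h4.1, h4.2]
  filter_upwards [key] with i hi t ht z hz r hr
  by_cases hZ : s i ^ 2 * t ∈ Z
  · rw [(hC.resc0 w a Z A hw _ (h.pos i)).ar_sing (show t ∈ zs Z (s i) from hZ)]
    exact (beta_zero _ _ _).trans hδ.le
  · exact hi t ht hZ z hz r hr

/-- in a fixed range of small scales all balls are quiet -/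
theorem ev_bbar (hC : CalcW) (hT : TangW) (ha : a < 0) (hw : IsW0 w (Ioo a 0) Z A)
    (h : TanW w Z s ν) (hF : Flat ν) (R : ℝ) {δ : ℝ} (hδ : 0 < δ) :
    ∃ r₂ > 0, ∀ r₁ > 0, ∀ᶠ i in atTop, ∀ t ∈ Icc (-3 / 2 : ℝ) (-1), ∀ z : E3, ‖z‖ ≤ R →
      ∀ r ∈ Icc r₁ r₂, bbar (resc w (s i)) z r t ≤ δ := by
  obtain ⟨r₂, hr₂, h1⟩ := ev_beta hC hT ha hw h hF R hδ
  refine ⟨min r₂ (1 / 2), by positivity, fun r₁ hr₁ => ?_⟩
  filter_upwards [h1 r₁ hr₁] with i hi t ht z hz r hr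
  have h2 := hr.2.trans (min_le_right _ _)
  have h3 : 0 < r := hr₁.trans_le hr.1
  refine bbar_le hδ.le fun t' ht' => hi t' ⟨?_, ht'.2.trans ht.2⟩ z hz r
    ⟨hr.1, hr.2.trans (min_le_left _ _)⟩
  nlinarith [ht'.1, ht.1]

/-- near the track of a point of higher multiplicity the mass ratio is large -/
theorem ev_mass (hC : CalcW) (hD : CylDensStmt) (hT : TangW) (ha : a < 0)
    (hw : IsW0 w (Ioo a 0) Z A) (h : TanW w Z s ν) {z : E3} (hz : z ∈ Zset ν) :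
    ∃ r₂ > 0, ∀ r, 0 < r → r < r₂ → ∀ᶠ i in atTop, ∀ t ∈ Icc (-2 : ℝ) (-1), t ∉ zs Z (s i) →
      ENNReal.ofReal (r ^ 2 / 4) ≤ ar (resc w (s i) t) (closedBall (√(-t) • z) r) ∧
        ¬Reg (resc w (s i) t) (1 / 10) (√(-t) • z) r := by
  obtain ⟨r₂, hr₂, hz⟩ := (nhdsGT_basis (0 : ℝ)).eventually_iff.1 hz
  refine ⟨r₂, hr₂, fun r hr hrr => ev_unif' (R := fun i t => t ∉ zs Z (s i)) isCompact_Icc ?_⟩
  intro φ hφ t ht hR t' ht' htt
  have h' := tanW_sub h hφ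
  have h0 : t' < 0 := by linarith [ht'.2]
  have hc := one_le_sqrt ht'.2
  have hc0 : 0 < √(-t') := by linarith
  have hν := hT.ratio w a Z A ha hw _ _ h
  have h1 : 3 / 2 ≤ mk (scal ν √(-t')) (√(-t') • z) (r / 2) := by
    have h2 := mk_scal (ν := ν) hc0 z (r / 2 / √(-t'))
    rw [mul_div_cancel₀ _ hc0.ne'] at h2
    rw [h2]
    exact hz ⟨by positivity, (div_le_self (by positivity) hc).trans_lt (by linarith)⟩
  have h2 : Tendsto (fun i => ‖√(-t') • z - √(-t i) • z‖) atTop (𝓝 ‖√(-t') • z - √(-t') • z‖) :=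
    (tendsto_const_nhds.sub (htt.neg.sqrt.smul_const z)).norm
  rw [sub_self, norm_zero] at h2
  filter_upwards [P218UU.mk_lim (ev_AR hC ha hw h' h0 htt) (AR_scal hc0 hν)
    (hT.slow w a Z A ha hw _ _ h' t t' h0 htt (Eventually.of_forall hR)) ‖√(-t') • z‖ (r / 2)
    (r / 2) (1 / 10) (by positivity) (by norm_num), h2.eventually (gt_mem_nhds (half_pos hr)),
    ev_left ha h'.toTanSeq (-2)] with i hi h3 h4
  have h5 := (abs_le.1 (hi _ le_rfl (r / 2) ⟨le_rfl, le_rfl⟩)).1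
  simp only [Function.comp_apply] at h5 h4
  have hg := hC.resc0 w a Z A hw _ (h.pos (φ i))
  have hti : t i ∈ Ioo (a / s (φ i) ^ 2) 0 := ⟨h4.trans_le (ht i).1, by linarith [(ht i).2]⟩
  have hS := hg.slice hti
  have := (hg.ratio _ hti).locFin
  constructor
  · have h6 := mk_le_mass (μ := ar (resc w (s (φ i)) (t i))) (√(-t') • z) (half_pos hr)
    have h7 : r ^ 2 / 4 ≤ (ar (resc w (s (φ i)) (t i))).real (closedBall (√(-t') • z) (r / 2)) := by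
      rw [le_div_iff₀ (by positivity)] at h6
      nlinarith [sq_nonneg r]
    refine (ENNReal.ofReal_le_of_le_toReal h7).trans (measure_mono ?_)
    exact closedBall_subset_closedBall' (by rw [dist_eq_norm]; linarith)
  · rintro ⟨n, hn, h6⟩
    have h7 : ball (√(-t') • z) (r / 2) ⊆ ball (√(-t i) • z) r :=
      ball_subset_ball' (by rw [dist_eq_norm]; linarith)
    have h8 := mk_le_of_reg hD hS.smooth.continuous le_rfl (half_pos hr)
      ⟨n, hn, fun y hy y' hy' => h6 y (h7 hy) y' (h7 hy')⟩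
    linarith

lemma gd_resc {σ t : ℝ} (hσ : 0 < σ) :
    gd (ar (resc w σ t)) 0 √(0 - t) = gd (ar (w (σ ^ 2 * t))) 0 √(-(σ ^ 2 * t)) := by
  rw [P218UU.resc_eq, P218UW.gd_sc hσ, smul_zero, add_zero, zero_sub, ← mul_neg,
    Real.sqrt_mul (sq_nonneg σ), Real.sqrt_sq hσ.le]

theorem ev_dis (hC : CalcW) (hM : MonoW) (hT : TangW) (ha : a < 0) (hw : IsW0 w (Ioo a 0) Z A)
    (h : TanW w Z s ν) {ε : ℝ} (hε : 0 < ε) :
    ∀ᶠ i in atTop, ∫⁻ t in Icc (-2 : ℝ) (-1), dis (resc w (s i)) 0 0 t ≤ ENNReal.ofReal ε := by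
  obtain ⟨b, hb, hd⟩ := hT.drop w a Z A ha hw ε hε
  filter_upwards [ev_left ha h.toTanSeq (-3), ev_left hb h.toTanSeq (-3)] with i h1 h2
  have hs := h.pos i
  have hg := hC.resc0 w a Z A hw _ hs
  obtain ⟨t₁, h3, h4⟩ := exists_notMem hg.null (show (-3 : ℝ) < -2 by norm_num)
  obtain ⟨t₂, h5, h6⟩ := exists_notMem hg.null (show (-1 : ℝ) < 0 by norm_num)
  have h12 : t₁ ≤ t₂ := by linarith [h3.2, h5.1]
  have h7 := hM.mono _ _ _ A hg 0 0 t₁ ⟨⟨h1.trans h3.1, by linarith [h3.2]⟩, h4⟩ t₂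
    ⟨⟨by linarith [h5.1], h5.2⟩, h6⟩ h12 h5.2
  have h8 := hd _ ⟨(P218UU.mem_resc hs).2 ⟨h2.trans h3.1, by linarith [h3.2]⟩, h4⟩ _
    ⟨(P218UU.mem_resc hs).2 ⟨by linarith [h5.1], h5.2⟩, h6⟩
    (mul_le_mul_of_nonneg_left h12 (sq_nonneg _))
  rw [gd_resc hs, gd_resc hs] at h7
  have h9 : ENNReal.ofReal (gd (ar (w (s i ^ 2 * t₁))) 0 √(-(s i ^ 2 * t₁)))
      ≤ ENNReal.ofReal (gd (ar (w (s i ^ 2 * t₂))) 0 √(-(s i ^ 2 * t₂))) + ENNReal.ofReal ε := by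
    rw [← ENNReal.ofReal_add (gd_nonneg _ _ _) hε.le]
    exact ENNReal.ofReal_le_ofReal (by linarith)
  exact (lintegral_mono_set (Icc_subset_Ioo h3.2 h5.1)).trans
    ((ENNReal.add_le_add_iff_left ENNReal.ofReal_ne_top).1 (h7.trans h9))

/-- the first hypothesis of `CellW.small` holds along a blow-up sequence -/
theorem ev_excess (hC : CalcW) (hM : MonoW) (hT : TangW) (ha : a < 0)
    (hw : IsW0 w (Ioo a 0) Z A) (h : TanW w Z s ν) (R : ℝ) {ε : ℝ} (hε : 0 < ε) : ∀ᶠ i in atTop,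
      ∫⁻ t in Icc (-2 : ℝ) (-1), ∫⁻ x in ball 0 R,
        ENNReal.ofReal (max (|lap (resc w (s i) t) x| - R / 2) 0 ^ 2) ∂(ar (resc w (s i) t))
        ≤ ENNReal.ofReal ε := by
  set κ := 8 * Real.pi * Real.exp (R ^ 2 / 4) with hκ
  have hκ0 : 0 < κ := by positivity
  filter_upwards [ev_dis hC hM hT ha hw h (div_pos hε hκ0), ev_left ha h.toTanSeq (-2)]
    with i hi h3
  have hg := hC.resc0 w a Z A hw _ (h.pos i)
  calc _ ≤ ∫⁻ t in Icc (-2 : ℝ) (-1), ENNReal.ofReal κ * dis (resc w (s i)) 0 0 t :=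
        setLIntegral_mono' measurableSet_Icc fun t ht => excess_le_dis
          (hg.slice ⟨h3.trans_le ht.1, by linarith [ht.2]⟩) ht
    _ ≤ ENNReal.ofReal κ * ENNReal.ofReal (ε / κ) := by
        rw [lintegral_const_mul' _ _ ENNReal.ofReal_ne_top]
        exact mul_le_mul_right hi _
    _ = _ := by rw [← ENNReal.ofReal_mul hκ0.le, mul_div_cancel₀ _ hκ0.ne']

lemma DefLe.mono {B B' : Set E3} {a b a' b' e : ℝ} (h : DefLe w Z B a b e) (hB : B' ⊆ B)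
    (hab : Icc a' b' ⊆ Icc a b) : DefLe w Z B' a' b' e :=
  fun f h1 h2 h3 c hc d hd => h f h1 h2 (h3.trans hB) c ⟨hab hc.1, hc.2⟩ d ⟨hab hd.1, hd.2⟩

/-- the second hypothesis of `CellW.small` holds along a blow-up sequence -/
theorem ev_defect (hT : TangW) (ha : a < 0) (hw : IsW0 w (Ioo a 0) Z A) (h : TanW w Z s ν)
    {R ε : ℝ} (hR : 2 ≤ R) (hε : 0 < ε) : ∀ᶠ i in atTop,
      DefLe (resc w (s i)) (zs Z (s i)) (ball 0 R) (-2) (-1) ε := by
  obtain ⟨ρ₀, hρ₀, hd⟩ := hT.defect w a Z A ha hw R ε (by linarith) hε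
  filter_upwards [h.lim.eventually (gt_mem_nhds hρ₀)] with i hi
  have h1 := hd (s i) 1 (h.pos i) one_pos (by linarith)
  rw [mul_one, one_pow, mul_one] at h1
  refine DefLe.mono h1 Subset.rfl (Icc_subset_Icc (by nlinarith) ?_)
  have h2 : (1 / R) ^ 2 ≤ 1 := pow_le_one₀ (by positivity) ((div_le_one (by linarith)).2
    (by linarith))
  linarith

end Vale.Agent.P218WE
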